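import Vale.Agent.P296.Bdl.B1

/-!
# N296: the maximum principle argument for seminorms with a weak maximum property
-/

set_option linter.all false

namespace Vale.Agent.N296

open Complex Filter Topology Vale.Agent.P296 Vale.Agent.P296.Theta
open Vale.Agent.P296.NoG (phi EE norm_EE differentiable_EE EE_self EE_ne_zero norm_sq_eq phi_line)

theorem usc_mul {α : Type*} [TopologicalSpace α] {f g : α → ℝ} {s : Set α}
    (hf : UpperSemicontinuousOn f s) (hg : UpperSemicontinuousOn g s)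
    (f0 : ∀ x ∈ s, 0 ≤ f x) (g0 : ∀ x ∈ s, 0 ≤ g x) :
    UpperSemicontinuousOn (fun x => f x * g x) s := by
  rw [upperSemicontinuousOn_iff]
  intro x hx
  rw [upperSemicontinuousWithinAt_iff]
  intro y hy
  have hc : ContinuousAt (fun t : ℝ => (f x + t) * (g x + t)) 0 := by fun_prop
  have h1 : ∀ᶠ t in 𝓝 (0 : ℝ), (f x + t) * (g x + t) < y :=
    hc.eventually_lt continuousAt_const (by simpa using hy)
  obtain ⟨t, ht, ht0⟩ : ∃ t, (f x + t) * (g x + t) < y ∧ t ∈ Set.Ioi (0 : ℝ) :=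
    ((h1.filter_mono (nhdsWithin_le_nhds (s := Set.Ioi 0))).and self_mem_nhdsWithin).exists
  have ht1 : 0 < t := ht0
  filter_upwards [upperSemicontinuousWithinAt_iff.1 (hf x hx) (f x + t) (by linarith),
    upperSemicontinuousWithinAt_iff.1 (hg x hx) (g x + t) (by linarith), self_mem_nhdsWithin]
    with z h1 h2 hz
  exact lt_of_le_of_lt (mul_le_mul h1.le h2.le (g0 z hz) (by linarith [f0 x hx])) ht

theorem usc_pow {α : Type*} [TopologicalSpace α] {f : α → ℝ} {s : Set α}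
    (hf : UpperSemicontinuousOn f s) (f0 : ∀ x ∈ s, 0 ≤ f x) (k : ℕ) :
    UpperSemicontinuousOn (fun x => f x ^ k) s := by
  induction k with
  | zero => simpa using upperSemicontinuousOn_const
  | succ k ih =>
    simp only [pow_succ]
    exact usc_mul ih hf (fun x hx => pow_nonneg (f0 x hx) k) f0

/-- seminorms on `ℂ × ℂ` -/
structure IsSem (n : ℂ × ℂ → ℝ) : Prop where
  add : ∀ v w, n (v + w) ≤ n v + n w
  smul : ∀ (c : ℂ) v, n (c • v) = ‖c‖ * n v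
  nonneg : ∀ v, 0 ≤ n v

/-- the weak maximum property in the direction `(1, 0)` -/
def WM (n : ℂ × ℂ → ℂ × ℂ → ℝ) (x : ℂ × ℂ) : Prop :=
  ∀ (a b : ℂ → ℂ), AnalyticAt ℂ a 0 → AnalyticAt ℂ b 0 → 0 < n x (a 0, b 0) →
    ¬ IsLocalMax (fun ζ : ℂ => n (x + ζ • ((1, 0) : ℂ × ℂ)) (a ζ, b ζ) *
      Real.exp (1 / 10 * ‖ζ‖ ^ 2)) 0

theorem exp_aux' :
    Real.exp (3 * Real.pi / 2 * (1 / 6) ^ 2) * Real.exp (1 / 10 * (1 / 6) ^ 2) ≤ 7 / 6 := by
  rw [← Real.exp_add]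
  have h1 := Real.pi_lt_d2
  have h2 : 3 * Real.pi / 2 * (1 / 6) ^ 2 + 1 / 10 * (1 / 6) ^ 2 ≤ 0.135 := by linarith
  refine (Real.exp_le_exp.mpr h2).trans ?_
  have h3 := Real.exp_bound_div_one_sub_of_interval (x := 0.135) (by norm_num) (by norm_num)
  refine h3.trans ?_
  norm_num

theorem stepA {σ : ℝ} (l : ℝ) (t : ℂ) {ε M : ℝ} (hε : 0 < ε) (hε1 : ε ≤ 1) (hM : 0 ≤ M)
    (n : ℂ × ℂ → ℂ × ℂ → ℝ)
    (hn : ∀ s : ℂ, ‖s - l‖ < 1 / 5 → IsSem (n (s, t)))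
    (hc : ∀ a b : ℂ → ℂ, Differentiable ℂ a → Differentiable ℂ b →
      UpperSemicontinuousOn (fun s => n (s, t) (a s, b s)) {s | ‖s - l‖ < 1 / 5})
    (hmax : ∀ s : ℂ, ‖s - l‖ < 1 / 5 → WM n (s, t))
    (h1 : ∀ s : ℂ, ‖s - l‖ < 1 / 5 →
      n (s, t) (ε, s - l) ≤ M * Real.exp (phi σ (s, t) / 2))
    (h2 : ∀ s : ℂ, ‖s - l‖ < 1 / 5 → n (s, t) (1, 0) ≤ M * Real.exp (phi (-σ) (s, t) / 2))
    (s : ℂ) (hs : ‖s - l‖ ≤ 1 / 6) :
    n (s, t) (ε, s - l) ≤ 14 * M * (‖s - l‖ + ε) * Real.exp (phi σ (s, t) / 2) := by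
  set F : ℂ → ℂ := fun s => EE σ l t s - EE (-σ) l t s with hF
  have hFd : Differentiable ℂ F :=
    (differentiable_EE σ l t).sub (differentiable_EE (-σ) l t)
  have hFl : F l = 0 := by
    rw [hF]
    simp only [EE_self σ l t, sub_self]
  set k : ℂ → ℂ := dslope F l with hk
  have hkd : Differentiable ℂ k := by
    have := (Complex.differentiableOn_dslope (f := F) (c := (l : ℂ)) (s := Set.univ)
      univ_mem).mpr hFd.differentiableOn
    exact differentiableOn_univ.mp this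
  have hFk : ∀ s : ℂ, F s = (s - l) * k s := by
    intro s
    have := sub_smul_dslope F l s
    rw [hFl, sub_zero, smul_eq_mul] at this
    exact this.symm
  set W : ℂ → ℝ := fun s => n (s, t) (ε * k s, EE σ l t s) with hW
  have hkey : ∀ s : ℂ, (s - l) • ((ε * k s, EE σ l t s) : ℂ × ℂ) =
      EE σ l t s • ((ε, s - l) : ℂ × ℂ) +
        (-(ε * EE (-σ) l t s)) • ((1, 0) : ℂ × ℂ) := by
    intro s
    have h3 := hFk s
    rw [hF] at h3
    simp only at h3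
    ext
    · simp only [Prod.smul_mk, smul_eq_mul, Prod.mk_add_mk]
      linear_combination (-(ε : ℂ)) * h3
    · simp only [Prod.smul_mk, smul_eq_mul, Prod.mk_add_mk]
      ring
  have hεn : ‖(ε : ℂ)‖ = ε := by rw [Complex.norm_real, Real.norm_eq_abs, abs_of_pos hε]
  have hb1 : ∀ s : ℂ, ‖s - l‖ < 1 / 5 → ‖EE σ l t s‖ * n (s, t) (ε, s - l) ≤
      M * Real.exp (3 * Real.pi / 2 * ‖s - l‖ ^ 2) := by
    intro s hs
    rw [← norm_EE σ l t s]
    calc _ ≤ ‖EE σ l t s‖ * (M * Real.exp (phi σ (s, t) / 2)) :=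
          mul_le_mul_of_nonneg_left (h1 s hs) (norm_nonneg _)
      _ = _ := by ring
  have hb2 : ∀ s : ℂ, ‖s - l‖ < 1 / 5 → ‖-(ε * EE (-σ) l t s)‖ * n (s, t) (1, 0) ≤
      ε * (M * Real.exp (3 * Real.pi / 2 * ‖s - l‖ ^ 2)) := by
    intro s hs
    rw [← norm_EE (-σ) l t s, norm_neg, norm_mul, hεn, mul_assoc]
    refine mul_le_mul_of_nonneg_left ?_ hε.le
    calc _ ≤ ‖EE (-σ) l t s‖ * (M * Real.exp (phi (-σ) (s, t) / 2)) :=
          mul_le_mul_of_nonneg_left (h2 s hs) (norm_nonneg _)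
      _ = _ := by ring
  have hWb : ∀ s : ℂ, ‖s - l‖ < 1 / 5 → ‖s - l‖ * W s ≤
      (1 + ε) * (M * Real.exp (3 * Real.pi / 2 * ‖s - l‖ ^ 2)) := by
    intro s hs
    have hN := hn s hs
    rw [hW]
    simp only
    rw [← hN.smul, hkey]
    refine (hN.add _ _).trans ?_
    rw [hN.smul, hN.smul]
    linarith only [hb1 s hs, hb2 s hs]
  have hsub : Metric.closedBall (l : ℂ) (1 / 6) ⊆ {s | ‖s - l‖ < 1 / 5} := by
    intro s hs
    rw [Metric.mem_closedBall, dist_eq_norm] at hs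
    change ‖s - l‖ < 1 / 5
    linarith only [hs]
  have hW0 : ∀ s : ℂ, ‖s - l‖ < 1 / 5 → 0 ≤ W s := fun s hs => (hn s hs).nonneg _
  have hWc : UpperSemicontinuousOn (fun s => W s * Real.exp (1 / 10 * ‖s - l‖ ^ 2))
      (Metric.closedBall l (1 / 6)) := by
    refine usc_mul ((hc (fun s => ε * k s) (EE σ l t) (hkd.const_mul _)
      (differentiable_EE σ l t)).mono hsub) (Continuous.continuousOn (by fun_prop)).upperSemicontinuousOn
      (fun s hs => hW0 s (hsub hs)) fun s _ => Real.exp_nonneg _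
  obtain ⟨s1, hs1, hs1max⟩ := hWc.exists_isMaxOn
    ⟨(l : ℂ), Metric.mem_closedBall_self (by norm_num)⟩ (isCompact_closedBall (l : ℂ) (1 / 6))
  rw [Metric.mem_closedBall, dist_eq_norm] at hs1
  have hWs1 : W s1 * Real.exp (1 / 10 * ‖s1 - l‖ ^ 2) ≤ 14 * M := by
    by_cases hp : 0 < W s1
    swap
    · have h0 : W s1 = 0 := le_antisymm (not_lt.1 hp) (hW0 s1 (by linarith only [hs1]))
      rw [h0, zero_mul]
      positivity
    have hs1eq : ‖s1 - l‖ = 1 / 6 := by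
      by_contra hne
      have hlt : ‖s1 - l‖ < 1 / 6 := lt_of_le_of_ne hs1 hne
      set c : ℂ := 1 / 5 * starRingEnd ℂ (s1 - l) with hcdef
      refine hmax s1 (by linarith only [hlt]) (fun ζ => exp (c * ζ) * (ε * k (s1 + ζ)))
        (fun ζ => exp (c * ζ) * EE σ l t (s1 + ζ)) ?_ ?_ ?_ ?_
      · have h0 : Differentiable ℂ fun ζ => ε * k (s1 + ζ) :=
          (hkd.comp (differentiable_id.const_add s1)).const_mul _
        have : Differentiable ℂ fun ζ => exp (c * ζ) * (ε * k (s1 + ζ)) :=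
          Differentiable.mul (by fun_prop) h0
        exact this.analyticAt 0
      · have h0 : Differentiable ℂ fun ζ => EE σ l t (s1 + ζ) :=
          (differentiable_EE σ l t).comp (differentiable_id.const_add s1)
        have : Differentiable ℂ fun ζ => exp (c * ζ) * EE σ l t (s1 + ζ) :=
          Differentiable.mul (by fun_prop) h0
        exact this.analyticAt 0
      · simpa only [mul_zero, Complex.exp_zero, one_mul, add_zero] using hp
      · have hnb : ∀ᶠ ζ : ℂ in 𝓝 0, s1 + ζ ∈ Metric.closedBall (l : ℂ) (1 / 6) := by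
          have hcont : Continuous fun ζ : ℂ => ‖s1 + ζ - l‖ := by fun_prop
          have : ∀ᶠ ζ : ℂ in 𝓝 0, ‖s1 + ζ - l‖ < 1 / 6 :=
            hcont.continuousAt.eventually_lt continuousAt_const (by simpa using hlt)
          filter_upwards [this] with ζ hζ
          rw [Metric.mem_closedBall, dist_eq_norm]
          exact hζ.le
        have hform : ∀ ζ : ℂ, ‖s1 + ζ - l‖ < 1 / 5 →
            n ((s1, t) + ζ • ((1, 0) : ℂ × ℂ))
              (exp (c * ζ) * (ε * k (s1 + ζ)), exp (c * ζ) * EE σ l t (s1 + ζ)) *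
              Real.exp (1 / 10 * ‖ζ‖ ^ 2) =
            W (s1 + ζ) * Real.exp (1 / 10 * ‖s1 + ζ - l‖ ^ 2) *
              Real.exp (-(1 / 10 * ‖s1 - l‖ ^ 2)) := by
          intro ζ hζ
          have e1 : ((s1, t) : ℂ × ℂ) + ζ • ((1, 0) : ℂ × ℂ) = (s1 + ζ, t) := by simp
          have e2 : ((exp (c * ζ) * (ε * k (s1 + ζ)), exp (c * ζ) * EE σ l t (s1 + ζ)) : ℂ × ℂ) =
              exp (c * ζ) • ((ε * k (s1 + ζ), EE σ l t (s1 + ζ)) : ℂ × ℂ) := by simp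
          rw [e1, e2, (hn _ hζ).smul, Complex.norm_exp, mul_right_comm, ← Real.exp_add, mul_comm,
            mul_assoc (W _), ← Real.exp_add]
          congr 2
          have e3 : s1 + ζ - l = (s1 - l) + ζ := by ring
          rw [e3, hcdef]
          generalize s1 - (l : ℂ) = y
          have e4 : (1 / 5 : ℂ) = ((1 / 5 : ℝ) : ℂ) := by push_cast; ring
          rw [e4, mul_assoc, Complex.re_ofReal_mul]
          simp only [norm_sq_eq, add_re, add_im, mul_re, conj_re, conj_im]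
          ring
        filter_upwards [hnb] with ζ hζ
        have h3 := hs1max hζ
        simp only [Set.mem_ofPred_eq] at h3
        rw [hform ζ (hsub hζ), hform 0 (by rw [add_zero]; linarith only [hlt]), add_zero]
        exact mul_le_mul_of_nonneg_right h3 (Real.exp_nonneg _)
    have h3 := hWb s1 (by linarith only [hs1])
    rw [hs1eq] at h3 ⊢
    have h4 := exp_aux'
    have h5 : (1 + ε) * (M * Real.exp (3 * Real.pi / 2 * (1 / 6) ^ 2)) ≤
        2 * (M * Real.exp (3 * Real.pi / 2 * (1 / 6) ^ 2)) :=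
      mul_le_mul_of_nonneg_right (by linarith only [hε1]) (by positivity)
    have h6 : W s1 ≤ 12 * M * Real.exp (3 * Real.pi / 2 * (1 / 6) ^ 2) := by
      linarith only [h3, h5]
    calc W s1 * Real.exp (1 / 10 * (1 / 6) ^ 2)
        ≤ 12 * M * Real.exp (3 * Real.pi / 2 * (1 / 6) ^ 2) * Real.exp (1 / 10 * (1 / 6) ^ 2) :=
          mul_le_mul_of_nonneg_right h6 (Real.exp_nonneg _)
      _ = 12 * M * (Real.exp (3 * Real.pi / 2 * (1 / 6) ^ 2) * Real.exp (1 / 10 * (1 / 6) ^ 2)) := by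
          ring
      _ ≤ 12 * M * (7 / 6) := mul_le_mul_of_nonneg_left h4 (by positivity)
      _ = 14 * M := by ring
  have hWs : W s ≤ 14 * M := by
    have h3 := hs1max (show s ∈ Metric.closedBall (l : ℂ) (1 / 6) by
      rwa [Metric.mem_closedBall, dist_eq_norm])
    simp only [Set.mem_ofPred_eq] at h3
    have h4 : W s ≤ W s * Real.exp (1 / 10 * ‖s - l‖ ^ 2) :=
      le_mul_of_one_le_right (hW0 s (by linarith only [hs])) (Real.one_le_exp (by positivity))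
    linarith only [hWs1, h3, h4]
  have hs2 : ‖s - l‖ < 1 / 5 := by linarith only [hs]
  have hN := hn s hs2
  have hfin : ‖EE σ l t s‖ * n (s, t) (ε, s - l) ≤
      ‖s - l‖ * (14 * M) + ε * (M * Real.exp (3 * Real.pi / 2 * ‖s - l‖ ^ 2)) := by
    rw [← hN.smul]
    have h3 : EE σ l t s • ((ε, s - l) : ℂ × ℂ) =
        (s - l) • ((ε * k s, EE σ l t s) : ℂ × ℂ) +
          (ε * EE (-σ) l t s) • ((1, 0) : ℂ × ℂ) := by
      rw [hkey s, add_assoc, ← add_smul, neg_add_cancel, zero_smul, add_zero]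
    rw [h3]
    refine (hN.add _ _).trans ?_
    rw [hN.smul, hN.smul]
    have h4 := hb2 s hs2
    rw [norm_neg] at h4
    have h5 : ‖s - l‖ * n (s, t) (ε * k s, EE σ l t s) ≤ ‖s - l‖ * (14 * M) :=
      mul_le_mul_of_nonneg_left hWs (norm_nonneg _)
    linarith only [h4, h5]
  have hEpos : 0 < ‖EE σ l t s‖ := norm_pos_iff.mpr (EE_ne_zero σ l t s)
  have hexp1 : 1 ≤ Real.exp (3 * Real.pi / 2 * ‖s - l‖ ^ 2) := Real.one_le_exp (by (clear * -; positivity))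
  have hEe := norm_EE σ l t s
  have hgoal : ‖EE σ l t s‖ * n (s, t) (ε, s - l) ≤
      ‖EE σ l t s‖ * (14 * M * (‖s - l‖ + ε) * Real.exp (phi σ (s, t) / 2)) := by
    calc ‖EE σ l t s‖ * n (s, t) (ε, s - l)
        ≤ ‖s - l‖ * (14 * M) + ε * (M * Real.exp (3 * Real.pi / 2 * ‖s - l‖ ^ 2)) := hfin
      _ ≤ 14 * M * (‖s - l‖ + ε) * Real.exp (3 * Real.pi / 2 * ‖s - l‖ ^ 2) := by
        have h6 : 0 ≤ ‖s - l‖ * M := by (clear * - hM; positivity)
        have h7 : 0 ≤ ε * M := by (clear * - hε hM; positivity)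
        nlinarith only [h7, h6, hexp1]
      _ = _ := by rw [← hEe]; ring
  exact le_of_mul_le_mul_left hgoal hEpos

theorem stepB : ∃ ε0 : ℝ, 0 < ε0 ∧ ε0 ≤ 1 ∧ ∀ (σ : ℝ), σ ^ 2 = 1 → ∀ (l ε M : ℝ), 0 < ε → ε ≤ ε0 →
    0 ≤ M → ∀ (f : ℂ × ℂ → ℝ), UpperSemicontinuous f → (∀ x, 0 ≤ f x) →
    (∀ x γ : ℂ × ℂ, IsLat γ.1 → IsLat γ.2 → f (x + γ) = f x) →
    (∀ x : ℂ × ℂ, ‖x.1 - l‖ ≤ 1 / 6 → f x ≤ 14 * M * (‖x.1 - l‖ + ε)) →
    (∀ x : ℂ × ℂ, ¬ IsLat (x.1 - l) → 0 < f x → ∀ G : ℂ → ℂ, AnalyticAt ℂ G 0 →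
      ¬ IsLocalMax (fun ζ : ℂ => f (x + ζ • ((4, -3 * σ) : ℂ × ℂ)) *
        Real.exp (phi σ (x + ζ • ((4, -3 * σ) : ℂ × ℂ)) / 2) * Real.exp ((G ζ).re) *
        Real.exp (2 * ‖ζ‖ ^ 2)) 0) →
    ∀ x, f x ≤ M / 2 := by
  obtain ⟨c, hc, hlow⟩ := hw_lower'
  obtain ⟨C, hC, hup⟩ := hw_upper
  set η : ℝ := min (c / 3136) (c ^ 8 / (C ^ 7 * 56 ^ 16)) with hη
  have hη0 : 0 < η := by rw [hη]; positivity
  have hη1 : η ≤ c / 3136 := min_le_left _ _
  have hη2 : η ≤ c ^ 8 / (C ^ 7 * 56 ^ 16) := min_le_right _ _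
  set ρ : ℝ := Real.sqrt (η / c) with hρ
  have hρ0 : 0 < ρ := Real.sqrt_pos.mpr (by positivity)
  have hρ2 : ρ ^ 2 = η / c := Real.sq_sqrt (by positivity)
  have hρ1 : ρ ≤ 1 / 56 := by
    rw [hρ]
    apply Real.sqrt_le_iff.mpr
    refine ⟨by norm_num, ?_⟩
    rw [div_le_iff₀ hc]
    linarith only [hη1]
  refine ⟨ρ, hρ0, by linarith only [hρ1], ?_⟩
  intro σ hσ l ε M hε hε0 hM f hf hpos hper hA hmax
  have htube : ∀ x : ℂ × ℂ, hw (x.1 - l) ≤ η → f x ≤ 28 * M * ρ := by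
    intro x hx
    obtain ⟨l', hl', hcl⟩ := hlow (x.1 - l)
    have h1 : ‖x.1 - l - l'‖ ^ 2 ≤ ρ ^ 2 := by
      rw [hρ2, le_div_iff₀ hc]
      linarith only [hx, hcl]
    have h2 : ‖x.1 - l - l'‖ ≤ ρ := le_of_sq_le_sq h1 hρ0.le
    have h3 : f x = f (x + (-l', 0)) :=
      (hper x (-l', 0) hl'.neg ⟨0, 0, by simp⟩).symm
    have h4 : (x + ((-l', 0) : ℂ × ℂ)).1 - l = x.1 - l - l' := by
      simp only [Prod.fst_add]; ring
    rw [h3]
    have h5 := hA (x + (-l', 0)) (by rw [h4]; linarith only [hρ1, h2])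
    rw [h4] at h5
    refine h5.trans ?_
    have : 14 * M * (‖x.1 - l - l'‖ + ε) ≤ 14 * M * (ρ + ρ) := by
      apply mul_le_mul_of_nonneg_left (by linarith only [hε0, h2]) (by (clear * - hM; positivity))
    linarith only [this]
  intro x
  by_cases hx : hw (x.1 - l) ≤ η
  · refine (htube x hx).trans ?_
    have : M * ρ ≤ M * (1 / 56) := mul_le_mul_of_nonneg_left hρ1 hM
    linarith only [this]
  push Not at hx
  set Ψ : ℂ × ℂ → ℝ := fun y => f y ^ 16 / hw (y.1 - l) ^ 7 with hΨ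
  set K : Set (ℂ × ℂ) := {y | η ≤ hw (y.1 - l)} ∩
    (Metric.closedBall (l : ℂ) (3 / 4) ×ˢ Metric.closedBall (0 : ℂ) (3 / 4)) with hK
  have hwc : Continuous fun y : ℂ × ℂ => hw (y.1 - l) :=
    continuous_hw.comp (continuous_fst.sub continuous_const)
  have hKc : IsCompact K :=
    ((isCompact_closedBall _ _).prod (isCompact_closedBall _ _)).inter_left
      (isClosed_le continuous_const hwc)
  have hred : ∀ y : ℂ × ℂ, η ≤ hw (y.1 - l) → ∃ y' ∈ K, f y = f y' ∧ Ψ y = Ψ y' := by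
    intro y hy
    obtain ⟨m1, hm1, hm1'⟩ := exists_lat (y.1 - l)
    obtain ⟨m2, hm2, hm2'⟩ := exists_lat y.2
    have e1 : (y + ((-m1, -m2) : ℂ × ℂ)).1 - l = (y.1 - l) + (-m1) := by simp only [Prod.fst_add]; ring
    have e2 : (y + ((-m1, -m2) : ℂ × ℂ)).2 = y.2 - m2 := by simp; ring
    have e3 : hw ((y + ((-m1, -m2) : ℂ × ℂ)).1 - l) = hw (y.1 - l) := by
      rw [e1]; exact hw_add_lat _ hm1.neg
    have e4 : f (y + (-m1, -m2)) = f y := hper y (-m1, -m2) hm1.neg hm2.neg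
    refine ⟨y + (-m1, -m2), ⟨?_, ?_, ?_⟩, e4.symm, ?_⟩
    · change η ≤ hw ((y + ((-m1, -m2) : ℂ × ℂ)).1 - l)
      rw [e3]; exact hy
    · rw [Metric.mem_closedBall, dist_eq_norm, e1]
      simpa only [sub_eq_add_neg] using hm1'
    · rw [Metric.mem_closedBall, dist_zero_right, e2]
      exact hm2'
    · rw [hΨ]
      simp only
      rw [e3, e4]
  have hΨc : UpperSemicontinuousOn Ψ K := by
    have hp : ∀ y ∈ K, 0 < hw (y.1 - l) ^ 7 := fun y hy =>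
      pow_pos (lt_of_lt_of_le hη0 hy.1) 7
    have h1 : ContinuousOn (fun y : ℂ × ℂ => (hw (y.1 - l) ^ 7)⁻¹) K :=
      (hwc.pow 7).continuousOn.inv₀ fun y hy => (hp y hy).ne'
    exact usc_mul (usc_pow (hf.upperSemicontinuousOn K) (fun y _ => hpos y) 16)
      h1.upperSemicontinuousOn (fun y _ => pow_nonneg (hpos y) _) fun y hy => (inv_pos.2 (hp y hy)).le
  obtain ⟨x', hx'K, hfx', hΨx'⟩ := hred x hx.le
  obtain ⟨x0, hx0K, hx0max⟩ := hΨc.exists_isMaxOn ⟨x', hx'K⟩ hKc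
  have hglob : ∀ y : ℂ × ℂ, η ≤ hw (y.1 - l) → Ψ y ≤ Ψ x0 := by
    intro y hy
    obtain ⟨y', hy'K, _, hΨy'⟩ := hred y hy
    rw [hΨy']
    exact hx0max hy'K
  have hx0η : η ≤ hw (x0.1 - l) := hx0K.1
  by_cases hp0 : 0 < f x0
  swap
  · have h0 : f x0 = 0 := le_antisymm (not_lt.1 hp0) (hpos x0)
    have h1 := hglob x hx.le
    have hwx : 0 < hw (x.1 - l) := by linarith only [hη0, hx]
    simp only [hΨ, h0] at h1
    rw [zero_pow (by norm_num), zero_div, div_le_iff₀ (pow_pos hwx 7), zero_mul] at h1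
    have h2 : f x = 0 := pow_eq_zero_iff (n := 16) (by norm_num) |>.1
      (le_antisymm h1 (pow_nonneg (hpos x) _))
    rw [h2]
    positivity
  have hbd : hw (x0.1 - l) = η := by
    by_contra hne
    have hlt : η < hw (x0.1 - l) := lt_of_le_of_ne hx0η (Ne.symm hne)
    have hnl : ¬ IsLat (x0.1 - l) := by
      intro hL
      have h1 := hw_add_lat (0 : ℂ) hL
      rw [zero_add] at h1
      have h2 : hw 0 = 0 := by unfold hw; rw [th_zero]; simp
      rw [h1, h2] at hlt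
      linarith only [hη0, hlt]
    obtain ⟨g, hg, hgl⟩ := log_hw_local hnl
    refine hmax x0 hnl hp0 (fun ζ => (-7 * g (x0.1 - l + 4 * ζ) - (8 * phi σ x0 : ℝ) +
      96 * Real.pi * x0.1.im * I * ζ + 96 * Real.pi * ζ ^ 2) / 16) ?_ ?_
    · have h1 : AnalyticAt ℂ (fun ζ : ℂ => g (x0.1 - l + 4 * ζ)) 0 := by
        apply AnalyticAt.fun_comp (g := g) (f := fun ζ : ℂ => x0.1 - l + 4 * ζ)
        · simpa using hg
        · fun_prop
      exact ((((analyticAt_const.mul h1).sub analyticAt_const).add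
        (analyticAt_const.mul analyticAt_id)).add
        (analyticAt_const.mul (analyticAt_id.pow 2))).div analyticAt_const (by norm_num)
    · have hcont : Continuous fun ζ : ℂ => x0 + ζ • ((4, -3 * σ) : ℂ × ℂ) := by fun_prop
      have hev1 : ∀ᶠ ζ : ℂ in 𝓝 0, η < hw ((x0 + ζ • ((4, -3 * σ) : ℂ × ℂ)).1 - l) :=
        continuousAt_const.eventually_lt (hwc.comp hcont).continuousAt (by simpa using hlt)
      have hev2 : ∀ᶠ ζ : ℂ in 𝓝 0, Real.log (hw (x0.1 - l + 4 * ζ)) =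
          (g (x0.1 - l + 4 * ζ)).re - Real.pi * ‖x0.1 - l + 4 * ζ - (x0.1 - l)‖ ^ 2 := by
        have hc2 : ContinuousAt (fun ζ : ℂ => x0.1 - l + 4 * ζ) 0 := by fun_prop
        have : Tendsto (fun ζ : ℂ => x0.1 - l + 4 * ζ) (𝓝 0) (𝓝 (x0.1 - l)) := by
          simpa only [ContinuousAt, mul_zero, add_zero] using hc2
        exact this.eventually hgl
      have hkey : ∀ ζ : ℂ, η < hw ((x0 + ζ • ((4, -3 * σ) : ℂ × ℂ)).1 - l) →
          Real.log (hw (x0.1 - l + 4 * ζ)) =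
          (g (x0.1 - l + 4 * ζ)).re - Real.pi * ‖x0.1 - l + 4 * ζ - (x0.1 - l)‖ ^ 2 →
          (f (x0 + ζ • ((4, -3 * σ) : ℂ × ℂ)) *
            Real.exp (phi σ (x0 + ζ • ((4, -3 * σ) : ℂ × ℂ)) / 2) *
            Real.exp (((-7 * g (x0.1 - l + 4 * ζ) - (8 * phi σ x0 : ℝ) +
              96 * Real.pi * x0.1.im * I * ζ + 96 * Real.pi * ζ ^ 2) / 16).re)) ^ 16 =
          Ψ (x0 + ζ • ((4, -3 * σ) : ℂ × ℂ)) * Real.exp (-(16 * Real.pi * ‖ζ‖ ^ 2)) := by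
        intro ζ h1 h2
        have e1 : (x0 + ζ • ((4, -3 * σ) : ℂ × ℂ)).1 - l = x0.1 - l + 4 * ζ := by simp only [neg_mul, Prod.smul_mk, smul_eq_mul, mul_neg, Prod.fst_add]; ring
        have e2 : x0.1 - l + 4 * ζ - (x0.1 - l) = 4 * ζ := by ring
        rw [e1] at h1
        have hwpos : 0 < hw (x0.1 - l + 4 * ζ) := by linarith only [hη0, h1]
        rw [e2] at h2
        have h3 : hw (x0.1 - l + 4 * ζ) =
            Real.exp ((g (x0.1 - l + 4 * ζ)).re - Real.pi * ‖4 * ζ‖ ^ 2) := by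
          rw [← h2, Real.exp_log hwpos]
        rw [hΨ]
        simp only
        rw [e1, h3, mul_pow, mul_pow, ← Real.exp_nat_mul, ← Real.exp_nat_mul, ← Real.exp_nat_mul,
          mul_assoc, ← Real.exp_add, div_mul_eq_mul_div, mul_div_assoc, ← Real.exp_sub,
          phi_line hσ]
        congr 2
        have e3 : ((-7 * g (x0.1 - l + 4 * ζ) - (8 * phi σ x0 : ℝ) +
              96 * Real.pi * x0.1.im * I * ζ + 96 * Real.pi * ζ ^ 2) / 16).re =
            (-7 * (g (x0.1 - l + 4 * ζ)).re - 8 * phi σ x0 -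
              96 * Real.pi * x0.1.im * ζ.im + 96 * Real.pi * (ζ.re ^ 2 - ζ.im ^ 2)) / 16 := by
          have : (16 : ℂ) = ((16 : ℝ) : ℂ) := by norm_num
          rw [this, Complex.div_ofReal_re]
          congr 1
          simp only [add_re, sub_re, mul_re, mul_im, ofReal_re, ofReal_im, re_ofNat, im_ofNat,
            I_re, I_im, neg_re, neg_im, sq]
          ring
        rw [e3, norm_mul, mul_pow, norm_sq_eq ζ]
        have e4 : ‖(4 : ℂ)‖ ^ 2 = 16 := by norm_num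
        rw [e4]
        push_cast
        ring
      have h0e : η < hw ((x0 + (0 : ℂ) • ((4, -3 * σ) : ℂ × ℂ)).1 - l) := by simpa using hlt
      filter_upwards [hev1, hev2] with ζ h1 h2
      have hk1 := hkey ζ h1 h2
      have hk0 := hkey 0 h0e (hev2.self_of_nhds)
      have hnn : 0 ≤ f (x0 + (0 : ℂ) • ((4, -3 * σ) : ℂ × ℂ)) *
            Real.exp (phi σ (x0 + (0 : ℂ) • ((4, -3 * σ) : ℂ × ℂ)) / 2) *
            Real.exp (((-7 * g (x0.1 - l + 4 * 0) - (8 * phi σ x0 : ℝ) +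
              96 * Real.pi * x0.1.im * I * 0 + 96 * Real.pi * 0 ^ 2) / 16).re) *
            Real.exp (2 * ‖(0 : ℂ)‖ ^ 2) :=
        mul_nonneg (mul_nonneg (mul_nonneg (hpos _) (Real.exp_nonneg _)) (Real.exp_nonneg _))
          (Real.exp_nonneg _)
      refine le_of_pow_le_pow_left₀ (n := 16) (by norm_num) hnn ?_
      rw [mul_pow _ (Real.exp (2 * ‖ζ‖ ^ 2)), mul_pow _ (Real.exp (2 * ‖(0 : ℂ)‖ ^ 2)), hk1, hk0]
      have h3 : Ψ (x0 + ζ • ((4, -3 * σ) : ℂ × ℂ)) ≤ Ψ x0 := hglob _ h1.le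
      have h4 : Ψ (x0 + (0 : ℂ) • ((4, -3 * σ) : ℂ × ℂ)) = Ψ x0 := by simp
      rw [h4, norm_zero]
      have h5 : Real.exp (-(16 * Real.pi * ‖ζ‖ ^ 2)) * Real.exp (2 * ‖ζ‖ ^ 2) ^ 16 ≤ 1 := by
        rw [← Real.exp_nat_mul, ← Real.exp_add, Real.exp_le_one_iff]
        have h7 := Real.pi_gt_three
        have h8 : 0 ≤ ‖ζ‖ ^ 2 := sq_nonneg _
        push_cast
        nlinarith only [h7, h8]
      have h6 : 0 ≤ Ψ x0 := div_nonneg (pow_nonneg (hpos x0) _) (pow_nonneg (hw_nonneg _) _)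
      calc Ψ (x0 + ζ • ((4, -3 * σ) : ℂ × ℂ)) * Real.exp (-(16 * Real.pi * ‖ζ‖ ^ 2)) *
            Real.exp (2 * ‖ζ‖ ^ 2) ^ 16
          = Ψ (x0 + ζ • ((4, -3 * σ) : ℂ × ℂ)) * (Real.exp (-(16 * Real.pi * ‖ζ‖ ^ 2)) *
            Real.exp (2 * ‖ζ‖ ^ 2) ^ 16) := mul_assoc _ _ _
        _ ≤ Ψ x0 * 1 := mul_le_mul h3 h5 (by positivity) h6
        _ = _ := by simp
  have hfx0 : f x0 ≤ 28 * M * ρ := htube x0 hbd.le
  have hΨx0 : Ψ x0 ≤ (28 * M * ρ) ^ 16 / η ^ 7 := by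
    rw [hΨ]
    simp only
    rw [hbd]
    have := hpos x0
    (clear * - this hfx0 hc hC; gcongr)
  have hfx : f x ^ 16 ≤ (M / 2) ^ 16 := by
    have h1 := hglob x hx.le
    have hwx : 0 < hw (x.1 - l) := by linarith only [hη0, hx]
    have h2 : f x ^ 16 = Ψ x * hw (x.1 - l) ^ 7 := by
      rw [hΨ]
      simp only
      (clear * - hwx; field_simp)
    rw [h2]
    calc Ψ x * hw (x.1 - l) ^ 7 ≤ ((28 * M * ρ) ^ 16 / η ^ 7) * C ^ 7 := by
          apply mul_le_mul (h1.trans hΨx0) _ (by (clear * - hwx; positivity)) (by (clear * - hc hC; positivity))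
          exact pow_le_pow_left₀ hwx.le (hup _) 7
      _ = (28 ^ 16 * M ^ 16 * C ^ 7 / c ^ 8) * η := by
          have : (28 * M * ρ) ^ 16 = 28 ^ 16 * M ^ 16 * (ρ ^ 2) ^ 8 := by ring
          rw [this, hρ2]
          (clear * - hC hc hη0; field_simp)
      _ ≤ (28 ^ 16 * M ^ 16 * C ^ 7 / c ^ 8) * (c ^ 8 / (C ^ 7 * 56 ^ 16)) := by
          apply mul_le_mul_of_nonneg_left hη2 (by (clear * - hC hc; positivity))
      _ = (M / 2) ^ 16 := by
          field_simp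
          ring
  exact le_of_pow_le_pow_left₀ (n := 16) (by norm_num) (by (clear * - hM; positivity)) hfx

/-- Data extracted from a family of seminorms on the dual bundle. -/
structure WData (ε : ℝ) (f1 f2 : ℂ × ℂ → ℝ) (n1 n2 : ℂ × ℂ → ℂ × ℂ → ℝ) : Prop where
  cont1 : UpperSemicontinuous f1
  cont2 : UpperSemicontinuous f2
  pos1 : ∀ x, 0 ≤ f1 x
  pos2 : ∀ x, 0 ≤ f2 x
  per1 : ∀ x γ : ℂ × ℂ, IsLat γ.1 → IsLat γ.2 → f1 (x + γ) = f1 x
  per2 : ∀ x γ : ℂ × ℂ, IsLat γ.1 → IsLat γ.2 → f2 (x + γ) = f2 x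
  nrm1 : ∀ x : ℂ × ℂ, ‖x.1‖ < 1 / 5 → IsSem (n1 x)
  nrm2 : ∀ x : ℂ × ℂ, ‖x.1 - 1 / 2‖ < 1 / 5 → IsSem (n2 x)
  nc1 : ∀ (t : ℂ) (a b : ℂ → ℂ), Differentiable ℂ a → Differentiable ℂ b →
    UpperSemicontinuousOn (fun s => n1 (s, t) (a s, b s)) {s | ‖s‖ < 1 / 5}
  nc2 : ∀ (t : ℂ) (a b : ℂ → ℂ), Differentiable ℂ a → Differentiable ℂ b →
    UpperSemicontinuousOn (fun s => n2 (s, t) (a s, b s)) {s | ‖s - 1 / 2‖ < 1 / 5}
  nlm1 : ∀ x : ℂ × ℂ, ‖x.1‖ < 1 / 5 → WM n1 x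
  nlm2 : ∀ x : ℂ × ℂ, ‖x.1 - 1 / 2‖ < 1 / 5 → WM n2 x
  link1a : ∀ x : ℂ × ℂ, ‖x.1‖ < 1 / 5 → n1 x (ε, x.1) = f1 x * Real.exp (phi 1 x / 2)
  link1b : ∀ x : ℂ × ℂ, ‖x.1‖ < 1 / 5 → n1 x (1, 0) = f2 x * Real.exp (phi (-1) x / 2)
  link2a : ∀ x : ℂ × ℂ, ‖x.1 - 1 / 2‖ < 1 / 5 →
    n2 x (ε, x.1 - 1 / 2) = f2 x * Real.exp (phi (-1) x / 2)
  link2b : ∀ x : ℂ × ℂ, ‖x.1 - 1 / 2‖ < 1 / 5 → n2 x (1, 0) = f1 x * Real.exp (phi 1 x / 2)
  max1 : ∀ x : ℂ × ℂ, ¬ IsLat x.1 → 0 < f1 x → ∀ G : ℂ → ℂ, AnalyticAt ℂ G 0 →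
    ¬ IsLocalMax (fun ζ : ℂ => f1 (x + ζ • ((4, -3) : ℂ × ℂ)) *
      Real.exp (phi 1 (x + ζ • ((4, -3) : ℂ × ℂ)) / 2) * Real.exp ((G ζ).re) *
      Real.exp (2 * ‖ζ‖ ^ 2)) 0
  max2 : ∀ x : ℂ × ℂ, ¬ IsLat (x.1 - 1 / 2) → 0 < f2 x → ∀ G : ℂ → ℂ, AnalyticAt ℂ G 0 →
    ¬ IsLocalMax (fun ζ : ℂ => f2 (x + ζ • ((4, 3) : ℂ × ℂ)) *
      Real.exp (phi (-1) (x + ζ • ((4, 3) : ℂ × ℂ)) / 2) * Real.exp ((G ζ).re) *
      Real.exp (2 * ‖ζ‖ ^ 2)) 0

theorem exists_max_of_periodic {f : ℂ × ℂ → ℝ} (hf : UpperSemicontinuous f)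
    (hper : ∀ x γ : ℂ × ℂ, IsLat γ.1 → IsLat γ.2 → f (x + γ) = f x) :
    ∃ x0, ∀ x, f x ≤ f x0 := by
  obtain ⟨x0, _, hx0⟩ := (hf.upperSemicontinuousOn _).exists_isMaxOn
    ⟨(0, 0), by simp only [Set.mem_prod, Metric.mem_closedBall, dist_self, and_self]; norm_num⟩
    ((isCompact_closedBall (0 : ℂ) (3 / 4)).prod (isCompact_closedBall (0 : ℂ) (3 / 4)))
  refine ⟨x0, fun x => ?_⟩
  obtain ⟨m1, hm1, hm1'⟩ := exists_lat x.1
  obtain ⟨m2, hm2, hm2'⟩ := exists_lat x.2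
  have h1 : f (x + (-m1, -m2)) = f x := hper x (-m1, -m2) hm1.neg hm2.neg
  rw [← h1]
  refine hx0 (show x + (-m1, -m2) ∈ _ from ⟨?_, ?_⟩)
  · rw [Metric.mem_closedBall, dist_zero_right]
    simpa only [Prod.fst_add, sub_eq_add_neg] using hm1'
  · rw [Metric.mem_closedBall, dist_zero_right]
    simpa only [Prod.snd_add, sub_eq_add_neg] using hm2'

/-- For small `ε` such data vanish. -/
theorem core : ∃ ε0 : ℝ, 0 < ε0 ∧ ∀ ε : ℝ, 0 < ε → ε ≤ ε0 →
    ∀ (f1 f2 : ℂ × ℂ → ℝ) (n1 n2 : ℂ × ℂ → ℂ × ℂ → ℝ), WData ε f1 f2 n1 n2 → ∀ x, f1 x = 0 := by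
  obtain ⟨ε0, hε0, hε1, hB⟩ := stepB
  refine ⟨ε0, hε0, ?_⟩
  intro ε hε hεε f1 f2 n1 n2 D
  obtain ⟨a1, ha1⟩ := exists_max_of_periodic D.cont1 D.per1
  obtain ⟨a2, ha2⟩ := exists_max_of_periodic D.cont2 D.per2
  set M := max (f1 a1) (f2 a2) with hM
  have hMpos : 0 ≤ M := le_max_of_le_left (D.pos1 a1)
  have hM1 : ∀ x, f1 x ≤ M := fun x => (ha1 x).trans (le_max_left _ _)
  have hM2 : ∀ x, f2 x ≤ M := fun x => (ha2 x).trans (le_max_right _ _)
  have hA1 : ∀ x : ℂ × ℂ, ‖x.1 - (0 : ℝ)‖ ≤ 1 / 6 → f1 x ≤ 14 * M * (‖x.1 - (0 : ℝ)‖ + ε) := by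
    intro x hx
    have h := stepA (σ := 1) 0 x.2 hε (hεε.trans hε1) hMpos n1
      (fun s hs => D.nrm1 (s, x.2) (by simpa using hs)) ?_
      (fun s hs => D.nlm1 (s, x.2) (by simpa using hs)) ?_ ?_ x.1 hx
    · have h2 := D.link1a x (by simp only [ofReal_zero, sub_zero, one_div] at hx ⊢; linarith only [hx])
      simp only [ofReal_zero, sub_zero, Prod.mk.eta] at h ⊢
      rw [h2] at h
      exact le_of_mul_le_mul_right h (Real.exp_pos _)
    · intro a b ha hb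
      simpa only [ofReal_zero, sub_zero] using D.nc1 x.2 a b ha hb
    · intro s hs
      have h2 := D.link1a (s, x.2) (by simpa using hs)
      simp only [ofReal_zero, sub_zero] at h2 ⊢
      rw [h2]
      exact mul_le_mul_of_nonneg_right (hM1 _) (Real.exp_nonneg _)
    · intro s hs
      have h2 := D.link1b (s, x.2) (by simpa using hs)
      rw [h2]
      exact mul_le_mul_of_nonneg_right (hM2 _) (Real.exp_nonneg _)
  have hA2 : ∀ x : ℂ × ℂ, ‖x.1 - ((1 / 2 : ℝ) : ℂ)‖ ≤ 1 / 6 →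
      f2 x ≤ 14 * M * (‖x.1 - ((1 / 2 : ℝ) : ℂ)‖ + ε) := by
    have hc : (((1 / 2 : ℝ) : ℂ)) = 1 / 2 := by push_cast; ring
    intro x hx
    have h := stepA (σ := -1) (1 / 2) x.2 hε (hεε.trans hε1) hMpos n2
      (fun s hs => D.nrm2 (s, x.2) (by rw [hc] at hs; exact hs)) ?_
      (fun s hs => D.nlm2 (s, x.2) (by rw [hc] at hs; exact hs)) ?_ ?_ x.1 hx
    · rw [hc] at hx h ⊢
      have h2 := D.link2a x (by linarith only [hx])
      simp only [Prod.mk.eta] at h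
      rw [h2] at h
      exact le_of_mul_le_mul_right h (Real.exp_pos _)
    · intro a b ha hb
      rw [hc]
      exact D.nc2 x.2 a b ha hb
    · intro s hs
      rw [hc] at hs ⊢
      have h2 := D.link2a (s, x.2) hs
      simp only at h2
      rw [h2]
      exact mul_le_mul_of_nonneg_right (hM2 _) (Real.exp_nonneg _)
    · intro s hs
      rw [hc] at hs
      have h2 := D.link2b (s, x.2) hs
      rw [h2, neg_neg]
      exact mul_le_mul_of_nonneg_right (hM1 _) (Real.exp_nonneg _)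
  have hB1 := hB 1 (by norm_num) 0 ε M hε hεε hMpos f1 D.cont1 D.pos1 D.per1 hA1 (by
    intro x hx hp G hG
    have h := D.max1 x (by simpa using hx) hp G hG
    simpa only [ofReal_one, mul_one, Prod.smul_mk, smul_eq_mul, mul_neg] using h)
  have hB2 := hB (-1) (by norm_num) (1 / 2) ε M hε hεε hMpos f2 D.cont2 D.pos2 D.per2 hA2 (by
    intro x hx hp G hG
    have hc : (((1 / 2 : ℝ) : ℂ)) = 1 / 2 := by push_cast; ring
    rw [hc] at hx
    have h := D.max2 x hx hp G hG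
    simpa only [ofReal_neg, ofReal_one, mul_neg, mul_one, neg_neg, Prod.smul_mk, smul_eq_mul] using h)
  have h1 := hB1 a1
  have h2 := hB2 a2
  have h3 : M ≤ M / 2 := max_le h1 h2
  intro x
  exact le_antisymm (by linarith only [hM1 x, hMpos, h3]) (D.pos1 x)

end Vale.Agent.N296
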