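import Vale.Agent.P296Z.Defs
import Mathlib.MeasureTheory.Integral.CircleAverage
import Mathlib.Analysis.Seminorm

/-!
# N296: almost semipositive metrics, singular semipositive metrics
-/

noncomputable section

namespace Vale.Agent.N296

open Bundle Matrix Vale.Agent.P296Z
open scoped Manifold ContDiff

/-- `f` is plurisubharmonic on `W`: it is upper semicontinuous, and its value at the centre of a
closed disc in `W` is at most its mean value on the boundary circle. -/
def IsPsh {n : ℕ} (f : Cn n → ℝ) (W : Set (Cn n)) : Prop :=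
  UpperSemicontinuousOn f W ∧ ∀ z ξ : Cn n, (∀ ζ : ℂ, ‖ζ‖ ≤ 1 → z + ζ • ξ ∈ W) →
    f z ≤ Real.circleAverage (fun ζ => f (z + ζ • ξ)) 0 1

section bundle

variable {n r : ℕ} {X : Type} [TopologicalSpace X] [ChartedSpace (Cn n) X]
  {E : X → Type} [∀ x, AddCommGroup (E x)] [∀ x, Module ℂ (E x)] [∀ x, TopologicalSpace (E x)]
  [TopologicalSpace (TotalSpace (Cn r) E)] [FiberBundle (Cn r) E] [VectorBundle ℂ (Cn r) E]

/-- The negative part of the curvature of the metrics `H k` tends to zero locally uniformly: on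
every compact set of a chart and for every `δ > 0`, `⟨Θ(ξ, ξ̄) v, v⟩ ≥ -δ |ξ|² h(v, v)` for large
`k`. -/
def AlmostSemipositive (H : ℕ → HermitianMetric n r E) : Prop :=
  ∀ c ∈ atlas (Cn n) X, ∀ (t : Trivialization (Cn r) (π (Cn r) E)) [MemTrivializationAtlas t],
    ∀ K ⊆ dom c t, IsCompact K → ∀ δ : ℝ, 0 < δ → ∃ k₀, ∀ k ≥ k₀, ∀ z ∈ K, ∀ (ξ : Cn n) (v : Cn r),
      -δ * ‖ξ‖ ^ 2 * (star v ⬝ᵥ gram (H k).h c t z *ᵥ v).re ≤
        (star v ⬝ᵥ gram (H k).h c t z *ᵥ curvature (gram (H k).h c t) ξ z *ᵥ v).re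

variable (n r) in
/-- The seminorms `N x` on the fibres of `E*` are Griffiths seminegative: `|u|²` is
plurisubharmonic for every local holomorphic section `u` of `E*`. -/
def Seminegative (N : ∀ x, Seminorm ℂ (Module.Dual ℂ (E x))) : Prop :=
  ∀ c ∈ atlas (Cn n) X, ∀ (t : Trivialization (Cn r) (π (Cn r) E)) [MemTrivializationAtlas t],
    ∀ W ⊆ dom c t, IsOpen W → ∀ u : Cn n → Cn r, DifferentiableOn ℂ u W →
      IsPsh (fun z => loc (fun x l => N x l) c t (z, u z) ^ 2) W

end bundle

/-- A weak form of Griffiths' conjecture: every ample bundle of rank `r` on a smooth connected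
projective variety of dimension `n` has an almost semipositive sequence of smooth Hermitian metrics,
or its dual has a seminegative family of seminorms which is a norm on at least one fibre. -/
def WeakGriffiths (n r : ℕ) : Prop :=
  ∀ (X : Type) [TopologicalSpace X] [ChartedSpace (Cn n) X] [IsManifold 𝓘(ℂ, Cn n) ω X]
    [T2Space X] [CompactSpace X] [ConnectedSpace X], IsSmoothProjective n X →
    ∀ (E : X → Type) [∀ x, AddCommGroup (E x)] [∀ x, Module ℂ (E x)]
      [∀ x, TopologicalSpace (E x)] [TopologicalSpace (TotalSpace (Cn r) E)]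
      [FiberBundle (Cn r) E] [VectorBundle ℂ (Cn r) E]
      [ContMDiffVectorBundle ω (Cn r) E 𝓘(ℂ, Cn n)], IsAmple n r E →
      (∃ H : ℕ → HermitianMetric n r E, AlmostSemipositive H) ∨
      ∃ N : ∀ x, Seminorm ℂ (Module.Dual ℂ (E x)), Seminegative n r N ∧
        ∃ x, ∀ u, N x u = 0 → u = 0

end Vale.Agent.N296
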