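import Vale.Agent.N296.Core
import Vale.Agent.P296.H354.NoG

/-!
# N296: families of seminorms on the dual of a bundle on the torus
-/

set_option linter.all false

namespace Vale.Agent.N296

open Complex Matrix Filter Topology Vale.Agent.P296 Vale.Agent.P296.Theta Vale.Agent.P296.H354
open Vale.Agent.P296.Glue (zz zz_add zz_smul continuous_zz zz_ne_zero phi_zz sg row_ne_zero Dm_row
  continuous_phi)
open scoped ContDiff ComplexOrder

/-- seminorms on the fibres of the dual bundle, upper semicontinuous along holomorphic sections and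
with a weak maximum property -/
structure Fam {n r : ℕ} (A : TorusBundle (gaussLattice n) r) where
  N : A.ι → (Fin n → ℂ) → (Fin r → ℂ) → ℝ
  add : ∀ i, ∀ z ∈ A.U i, ∀ u v, N i z (u + v) ≤ N i z u + N i z v
  smul : ∀ i, ∀ z ∈ A.U i, ∀ (c : ℂ) u, N i z (c • u) = ‖c‖ * N i z u
  nonneg : ∀ i, ∀ z ∈ A.U i, ∀ u, 0 ≤ N i z u
  compat : ∀ i j, ∀ l ∈ gaussLattice n, ∀ z ∈ A.U j, z + l ∈ A.U i → ∀ u,
    N j z (u ᵥ* A.g i j l z) = N i (z + l) u
  usc : ∀ i (u : (Fin n → ℂ) → Fin r → ℂ), Differentiable ℂ u →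
    UpperSemicontinuousOn (fun z => N i z (u z)) (A.U i)
  wm : ∀ i, ∀ z ∈ A.U i, ∀ (ξ : Fin n → ℂ) (u : ℂ → Fin r → ℂ) (κ : ℝ), ξ ≠ 0 →
    ‖ξ‖ ^ 2 / 10 ≤ κ → (∀ a, AnalyticAt ℂ (fun ζ => u ζ a) 0) → 0 < N i z (u 0) →
    ¬ IsLocalMax (fun ζ : ℂ => N i (z + ζ • ξ) (u ζ) * Real.exp (κ * ‖ζ‖ ^ 2)) 0

theorem usc_local {α β : Type*} [TopologicalSpace α] [TopologicalSpace β] {f : α → ℝ} {g : β → ℝ}
    {φ : α → β} {U : Set β} {x : α} (hU : IsOpen U) (hg : UpperSemicontinuousOn g U)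
    (hφ : ContinuousAt φ x) (hx : φ x ∈ U) (h : f =ᶠ[𝓝 x] fun y => g (φ y)) :
    UpperSemicontinuousAt f x := by
  rw [upperSemicontinuousAt_iff]
  intro y hy
  have h1 := upperSemicontinuousWithinAt_iff.1 (hg _ hx) y (h.self_of_nhds.symm.trans_lt hy)
  rw [nhdsWithin_eq_nhds.2 (hU.mem_nhds hx)] at h1
  filter_upwards [hφ.eventually h1, h] with w h2 h3
  rw [h3]
  exact h2

theorem norm_iE_le {n m : ℕ} (ξ : Fin n → ℂ) : ‖iE n m ξ‖ ≤ ‖ξ‖ := by
  rw [pi_norm_le_iff_of_nonneg (norm_nonneg _)]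
  intro k
  refine Fin.addCases (fun i => ?_) (fun i => ?_) k
  · rw [iE_left]; exact norm_le_pi_norm ξ i
  · rw [iE_right, norm_zero]; exact norm_nonneg _

theorem iE_vecMul_blk {r s : ℕ} (A : Matrix (Fin r) (Fin r) ℂ) (c : ℂ) (u : Fin r → ℂ) :
    iE r s u ᵥ* blk A c = iE r s (u ᵥ* A) :=
  ext_parts (by rw [pE_vecMul_blk, pE_iE, pE_iE]) (by rw [pL_vecMul_blk, pL_iE, pL_iE, smul_zero])

/-- restriction to a slice and to the first summand -/
noncomputable def slice {n r m s : ℕ} {E : TorusBundle (gaussLattice n) r} (S : Fam (ext E m s))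
    (y : Fin (n + m) → ℂ) (hy : pE n m y = 0) : Fam E :=
  have hm : ∀ i, ∀ z ∈ E.U i, iE n m z + y ∈ (ext E m s).U i := fun i z hz => by
    change pE n m (iE n m z + y) ∈ E.U i
    rw [map_add, pE_iE, hy, add_zero]; exact hz
  { N := fun i z u => S.N i (iE n m z + y) (iE r s u)
    add := fun i z hz u v => by
      rw [map_add]; exact S.add i _ (hm i z hz) _ _
    smul := fun i z hz c u => by
      rw [map_smul]; exact S.smul i _ (hm i z hz) _ _
    nonneg := fun i z hz u => S.nonneg i _ (hm i z hz) _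
    compat := fun i j l hl z hz hzl u => by
      have e : iE n m z + y + iE n m l = iE n m (z + l) + y := by rw [map_add]; abel
      have h := S.compat i j (iE n m l) (iE_mem hl) _ (hm j z hz) (by rw [e]; exact hm i _ hzl)
        (iE r s u)
      have hg : (ext E m s).g i j (iE n m l) (iE n m z + y) =
          blk (E.g i j l z) (aut (iE n m l) (iE n m z + y)) := by
        change blk (aut (pL n m (iE n m l)) (pL n m (iE n m z + y)) •
          E.g i j (pE n m (iE n m l)) (pE n m (iE n m z + y))) _ = _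
        rw [pL_iE, pE_iE, map_add (pE n m), pE_iE, hy, add_zero, aut_zero, one_smul]
      rw [hg, iE_vecMul_blk, e] at h
      exact h
    usc := fun i u hu => by
      have h1 := (S.usc i (fun z => iE r s (u (pE n m z)))
        ((iE r s).differentiable.comp (hu.comp (pE n m).differentiable))).comp
        (g := fun z => iE n m z + y) (t := E.U i)
        ((iE n m).continuous.add continuous_const).continuousOn (hm i)
      have h2 : (fun z => S.N i (iE n m z + y) (iE r s (u z))) =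
          (fun z => S.N i z (iE r s (u (pE n m z)))) ∘ fun z => iE n m z + y := by
        funext z
        simp only [Function.comp, map_add, pE_iE, hy, add_zero]
      rw [h2]
      exact h1
    wm := fun i z hz ξ u κ hξ hκ hu hp hmax => by
      refine S.wm i _ (hm i z hz) (iE n m ξ) (fun ζ => iE r s (u ζ)) κ (iE_ne_zero hξ) ?_ ?_ hp ?_
      · have := pow_le_pow_left₀ (norm_nonneg _) (norm_iE_le (m := m) ξ) 2
        linarith
      · intro a
        refine Fin.addCases (fun k => ?_) (fun k => ?_) a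
        · simp only [iE_left]
          exact hu k
        · simp only [iE_right]
          exact analyticAt_const
      · have e : ∀ ζ : ℂ, iE n m z + y + ζ • iE n m ξ = iE n m (z + ζ • ξ) + y := fun ζ => by
          rw [map_add, map_smul]; abel
        simp only [e]
        exact hmax }

theorem norm_eAut' (σ : ℝ) (l z : Fin 2 → ℂ) :
    ‖eAut σ l z‖ = Real.exp (phi σ (z + l) / 2 - phi σ z / 2) := by
  have h1 := norm_eAut σ l z
  have h2 : ‖eAut σ l z‖ = Real.sqrt (‖eAut σ l z‖ ^ 2) := (Real.sqrt_sq (norm_nonneg _)).symm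
  rw [h2, h1, ← sub_div, Real.exp_half]

theorem norm_zz_le {w : ℂ × ℂ} {c : ℝ} (hc : 0 ≤ c) (h1 : ‖w.1‖ ≤ c) (h2 : ‖w.2‖ ≤ c) :
    ‖zz w‖ ≤ c := by
  rw [pi_norm_le_iff_of_nonneg hc]
  intro k
  fin_cases k
  · exact h1
  · exact h2

section glue

variable {ε : ℝ} {hε : 0 < ε} (S : Fam (bundle ε hε))

/-- the seminorms -/
def sN (i : Fin 3) : (Fin 2 → ℂ) → (Fin 2 → ℂ) → ℝ := S.N i

theorem sN_smul {i : Fin 3} {z : Fin 2 → ℂ} (hz : z ∈ Uset i) (c : ℂ) (u : Fin 2 → ℂ) :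
    sN S i z (c • u) = ‖c‖ * sN S i z u := S.smul i z hz c u

/-- normalised length of `v_k` computed in chart `i` at the point `y` -/
noncomputable def NN (k : Fin 2) (i : Fin 3) (y : Fin 2 → ℂ) : ℝ :=
  sN S i y (Wm ε i y k) * Real.exp (-(phi (sg k) y / 2))

theorem NN_compat (k : Fin 2) (i j : Fin 3) {l z : Fin 2 → ℂ} (hl : l ∈ gaussLattice 2)
    (hz : z ∈ Uset j) (hzl : z + l ∈ Uset i) : NN S k i (z + l) = NN S k j z := by
  have h2 : sN S j z (Wm ε i (z + l) k ᵥ* gmat ε i j l z) = sN S i (z + l) (Wm ε i (z + l) k) :=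
    S.compat i j l hl z hz hzl _
  have h3 : Wm ε i (z + l) k ᵥ* gmat ε i j l z = eAut (sg k) l z • Wm ε j z k := by
    rw [← Dm_row, ← gmat_rel hε i j hl hz hzl]
    rfl
  unfold NN
  rw [← h2, h3, sN_smul S hz, norm_eAut', mul_right_comm, ← Real.exp_add, mul_comm]
  congr 2
  ring

theorem NN_indep (k : Fin 2) (i j : Fin 3) {l m z : Fin 2 → ℂ} (hl : l ∈ gaussLattice 2)
    (hm : m ∈ gaussLattice 2) (hzm : z + m ∈ Uset j) (hzl : z + l ∈ Uset i) :
    NN S k i (z + l) = NN S k j (z + m) := by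
  have h := NN_compat S k i j (l := l - m) (z := z + m) (sub_mem hl hm) hzm
    (by rw [add_assoc, add_sub_cancel]; exact hzl)
  rwa [add_assoc, add_sub_cancel] at h

/-- global normalised length of `v_k` -/
noncomputable def Ng (k : Fin 2) (z : Fin 2 → ℂ) : ℝ :=
  NN S k (Bdl.cover z).choose (z + (Bdl.cover z).choose_spec.choose)

theorem Ng_eq (k : Fin 2) {i : Fin 3} {l z : Fin 2 → ℂ} (hl : l ∈ gaussLattice 2)
    (hzl : z + l ∈ Uset i) : Ng S k z = NN S k i (z + l) :=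
  NN_indep S k _ _ (Bdl.cover z).choose_spec.choose_spec.1 hl hzl
    (Bdl.cover z).choose_spec.choose_spec.2

/-- the seminorm on the fibre coordinates in chart `i` -/
noncomputable def nn (i : Fin 3) (x u : ℂ × ℂ) : ℝ := sN S i (zz x) (zz u)

/-- the two functions of the core statement -/
noncomputable def ff (k : Fin 2) (x : ℂ × ℂ) : ℝ := Ng S k (zz x)

theorem ff_nonneg (k : Fin 2) (x : ℂ × ℂ) : 0 ≤ ff S k x := by
  obtain ⟨i, l, hl, hzl⟩ := Bdl.cover (zz x)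
  unfold ff
  rw [Ng_eq S k hl hzl]
  exact mul_nonneg (S.nonneg i _ hzl _) (Real.exp_nonneg _)

theorem differentiable_Wm (i : Fin 3) (k : Fin 2) :
    Differentiable ℂ fun z : Fin 2 → ℂ => Wm ε i z k := by
  refine differentiable_pi.2 fun a => ?_
  fin_cases i <;> fin_cases k <;> fin_cases a <;>
    simp [Bdl.Wm_zero, Bdl.Wm_one, Bdl.Wm_two] <;> fun_prop

theorem usc_ff (k : Fin 2) : UpperSemicontinuous (ff S k) := by
  rw [upperSemicontinuous_iff]
  intro x0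
  obtain ⟨i, l, hl, hzl⟩ := Bdl.cover (zz x0)
  have hopen : ∀ᶠ x in 𝓝 x0, zz x + l ∈ Uset i :=
    (continuous_zz.add continuous_const).continuousAt.eventually
      ((Bdl.isOpen_Uset i).mem_nhds hzl)
  have h1 : UpperSemicontinuousOn (NN S k i) (Uset i) :=
    usc_mul (S.usc i _ (differentiable_Wm i k))
      (Real.continuous_exp.comp
        ((continuous_phi _).div_const 2).neg).continuousOn.upperSemicontinuousOn
      (fun z hz => S.nonneg i z hz _) fun z _ => Real.exp_nonneg _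
  refine usc_local (φ := fun x => zz x + l) (Bdl.isOpen_Uset i) h1
    (continuous_zz.add continuous_const).continuousAt hzl ?_
  filter_upwards [hopen] with x hx
  exact Ng_eq S k hl hx

theorem ff_periodic (k : Fin 2) (x γ : ℂ × ℂ) (h1 : IsLat γ.1) (h2 : IsLat γ.2) :
    ff S k (x + γ) = ff S k x := by
  have hγ : zz γ ∈ gaussLattice 2 := by
    intro a
    fin_cases a
    · exact h1
    · exact h2
  obtain ⟨i, l, hl, hzl⟩ := Bdl.cover (zz (x + γ))
  unfold ff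
  rw [Ng_eq S k hl hzl]
  rw [zz_add, add_assoc] at hzl ⊢
  rw [Ng_eq S k (add_mem hγ hl) hzl]

theorem isSem_nn {i : Fin 3} {x : ℂ × ℂ} (hx : zz x ∈ Uset i) : IsSem (nn S i x) := by
  refine ⟨fun v w => ?_, fun c v => ?_, fun v => S.nonneg i _ hx _⟩
  · unfold nn
    rw [zz_add]
    exact S.add i _ hx _ _
  · unfold nn
    rw [zz_smul]
    exact S.smul i _ hx _ _

theorem usc_nn (i : Fin 3) (t : ℂ) {a b : ℂ → ℂ} (ha : Differentiable ℂ a)
    (hb : Differentiable ℂ b) :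
    UpperSemicontinuousOn (fun s => nn S i (s, t) (a s, b s)) {s | zz (s, t) ∈ Uset i} := by
  have hd : Differentiable ℂ fun z : Fin 2 → ℂ => zz (a (z 0), b (z 0)) := by
    refine differentiable_pi.2 fun k => ?_
    fin_cases k
    · exact ha.comp (differentiable_apply 0)
    · exact hb.comp (differentiable_apply 0)
  exact (S.usc i _ hd).comp (g := fun s => zz (s, t))
    (continuous_zz.comp (by fun_prop)).continuousOn fun s hs => hs

theorem wm_nn {i : Fin 3} {x : ℂ × ℂ} (hx : zz x ∈ Uset i) : WM (nn S i) x := by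
  intro a b ha hb hab hmax
  have h0 : ‖zz ((1, 0) : ℂ × ℂ)‖ ≤ 1 := norm_zz_le zero_le_one (by simp) (by simp)
  refine S.wm i _ hx (zz (1, 0)) (fun ζ => zz (a ζ, b ζ)) (1 / 10) (zz_ne_zero (by simp)) ?_ ?_
    hab ?_
  · nlinarith only [h0, norm_nonneg (zz ((1, 0) : ℂ × ℂ))]
  · intro k
    fin_cases k
    · exact ha
    · exact hb
  · simp only [nn, zz_add, zz_smul] at hmax
    exact hmax

theorem link (k : Fin 2) {i : Fin 3} {x : ℂ × ℂ} (hx : zz x ∈ Uset i) :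
    sN S i (zz x) (Wm ε i (zz x) k) = ff S k x * Real.exp (NoG.phi (sg k) x / 2) := by
  unfold ff
  rw [Ng_eq S k (zero_mem _) (by rw [add_zero]; exact hx), add_zero, phi_zz]
  unfold NN
  rw [mul_assoc, ← Real.exp_add, neg_add_cancel, Real.exp_zero, mul_one]

theorem nomax (k : Fin 2) (x w : ℂ × ℂ) (hw : w ≠ 0) (hw' : ‖zz w‖ ≤ 4) (hp : 0 < ff S k x)
    (G : ℂ → ℂ) (hGa : AnalyticAt ℂ G 0) :
    ¬ IsLocalMax (fun ζ : ℂ => ff S k (x + ζ • w) *
      Real.exp (NoG.phi (sg k) (x + ζ • w) / 2) * Real.exp ((G ζ).re) *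
      Real.exp (2 * ‖ζ‖ ^ 2)) 0 := by
  obtain ⟨i, l, hl, hzl⟩ := Bdl.cover (zz x)
  intro hmax
  set y : ℂ → (Fin 2 → ℂ) := fun ζ => zz x + ζ • zz w with hy
  set u : ℂ → (Fin 2 → ℂ) := fun ζ =>
    (exp (G ζ) * (eAut (sg k) l (y ζ))⁻¹) • Wm ε i (y ζ + l) k with hu
  have hyc : Continuous y := by fun_prop
  have hev : ∀ᶠ ζ in 𝓝 (0 : ℂ), y ζ + l ∈ Uset i := by
    apply (hyc.add continuous_const).continuousAt.eventually
    apply (Bdl.isOpen_Uset i).mem_nhds
    simpa [hy] using hzl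
  have hform : ∀ ζ : ℂ, y ζ + l ∈ Uset i → ff S k (x + ζ • w) *
      Real.exp (NoG.phi (sg k) (x + ζ • w) / 2) * Real.exp ((G ζ).re) =
      sN S i (zz x + l + ζ • zz w) (u ζ) := by
    intro ζ hζ
    have e1 : zz (x + ζ • w) = y ζ := by rw [zz_add, zz_smul]
    have e2 : zz x + l + ζ • zz w = y ζ + l := by
      simp only [hy]; abel
    rw [phi_zz, e1, e2, hu]
    simp only
    rw [sN_smul S hζ, norm_mul, norm_inv, norm_eAut', Complex.norm_exp]
    unfold ff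
    rw [e1, Ng_eq S k hl hζ]
    unfold NN
    rw [← Real.exp_neg, ← Real.exp_add, mul_assoc (sN S _ _ _), ← Real.exp_add,
      mul_assoc (sN S _ _ _), ← Real.exp_add, mul_comm]
    congr 2
    ring
  have h0 : y 0 + l ∈ Uset i := hev.self_of_nhds
  refine S.wm i _ hzl (zz w) u 2 (zz_ne_zero hw) ?_ ?_ ?_ ?_
  · nlinarith only [hw', norm_nonneg (zz w)]
  · intro a
    have hya : ∀ b, AnalyticAt ℂ (fun ζ => y ζ b) 0 := by
      intro b
      simp only [hy, Pi.add_apply, Pi.smul_apply, smul_eq_mul]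
      fun_prop
    have h1 : AnalyticAt ℂ (fun ζ => exp (G ζ)) 0 := hGa.cexp
    have h2 : AnalyticAt ℂ (fun ζ => eAut (sg k) l (y ζ)) 0 := by
      unfold eAut
      have := hya 0
      have := hya 1
      fun_prop
    have h3 : AnalyticAt ℂ (fun ζ => (eAut (sg k) l (y ζ))⁻¹) 0 :=
      h2.inv (Bdl.eAut_ne_zero _ _ _)
    have h4 : AnalyticAt ℂ (fun ζ => Wm ε i (y ζ + l) k a) 0 := by
      have := hya 0
      fin_cases i <;> fin_cases k <;> fin_cases a <;>
        simp [Bdl.Wm_zero, Bdl.Wm_one, Bdl.Wm_two] <;> fun_prop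
    exact (h1.mul h3).mul h4
  · have h1 := hform 0 h0
    simp only [zero_smul, add_zero] at h1
    change 0 < sN S i (zz x + l) (u 0)
    rw [← h1]
    positivity
  · filter_upwards [hmax, hev] with ζ h1 h2
    change sN S i _ _ * _ ≤ sN S i _ _ * _
    rw [← hform ζ h2, ← hform 0 h0]
    exact h1

theorem data : WData ε (ff S 0) (ff S 1) (nn S 1) (nn S 2) where
  cont1 := usc_ff S 0
  cont2 := usc_ff S 1
  pos1 := ff_nonneg S 0
  pos2 := ff_nonneg S 1
  per1 := ff_periodic S 0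
  per2 := ff_periodic S 1
  nrm1 := fun x hx => isSem_nn S (i := 1) hx
  nrm2 := fun x hx => isSem_nn S (i := 2) hx
  nc1 := fun t _ _ ha hb => usc_nn S 1 t ha hb
  nc2 := fun t _ _ ha hb => usc_nn S 2 t ha hb
  nlm1 := fun x hx => wm_nn S (i := 1) hx
  nlm2 := fun x hx => wm_nn S (i := 2) hx
  link1a := fun x hx => link S 0 (i := 1) hx
  link1b := fun x hx => link S 1 (i := 1) hx
  link2a := fun x hx => link S 1 (i := 2) hx
  link2b := fun x hx => link S 0 (i := 2) hx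
  max1 := fun x _ hp G hGa => nomax S 0 x (4, -3) (by simp)
    (norm_zz_le (by norm_num) (by simp) (by simp; norm_num)) hp G hGa
  max2 := fun x _ hp G hGa => nomax S 1 x (4, 3) (by simp)
    (norm_zz_le (by norm_num) (by simp) (by simp; norm_num)) hp G hGa

end glue

/-- **Every such family on the big bundles is degenerate at every point.** -/
theorem fam_ext : ∃ ε₀ : ℝ, 0 < ε₀ ∧ ∀ ε : ℝ, ∀ hε : 0 < ε, ε ≤ ε₀ → ∀ m s : ℕ,
    ∀ S : Fam (ext (bundle ε hε) m s), ∀ i, ∀ z ∈ (ext (bundle ε hε) m s).U i,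
      ∃ u, u ≠ 0 ∧ S.N i z u = 0 := by
  obtain ⟨ε₀, h0, h⟩ := core
  refine ⟨ε₀, h0, fun ε hε hle m s S i z hz => ?_⟩
  have hy : pE 2 m (z - iE 2 m (pE 2 m z)) = 0 := by rw [map_sub, pE_iE, sub_self]
  have e : zz (pE 2 m z 0, pE 2 m z 1) = pE 2 m z := by
    funext k; fin_cases k <;> rfl
  have h1 := link (slice S _ hy) 0 (i := i) (x := (pE 2 m z 0, pE 2 m z 1)) (by rw [e]; exact hz)
  rw [h ε hε hle _ _ _ _ (data (slice S _ hy)), zero_mul, e] at h1
  refine ⟨iE 2 s (Wm ε i (pE 2 m z) 0), iE_ne_zero (row_ne_zero hε i _ 0), ?_⟩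
  have h2 : S.N i (iE 2 m (pE 2 m z) + (z - iE 2 m (pE 2 m z)))
      (iE 2 s (Wm ε i (pE 2 m z) 0)) = 0 := h1
  rwa [add_sub_cancel] at h2

open Vale.Agent.P296.Curv in
theorem wm_of_curvature {n r : ℕ} {U : Set (Fin n → ℂ)} (hU : IsOpen U)
    {h : (Fin n → ℂ) → Matrix (Fin r) (Fin r) ℂ}
    (hh : ∀ a b, ContDiffOn ℝ 2 (fun z => h z a b) U) (hpd : ∀ z ∈ U, (h z).PosDef)
    {z : Fin n → ℂ} (hz : z ∈ U)
    (ξ : Fin n → ℂ) {κ : ℝ} (hκ : 0 ≤ κ)
    (hG : ∀ v : Fin r → ℂ, v ≠ 0 →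
      -κ * (star v ⬝ᵥ (h z *ᵥ v)).re < (chernCurvature h z ξ v).re)
    (u : ℂ → Fin r → ℂ) (hu : ∀ a, AnalyticAt ℂ (fun ζ => u ζ a) 0) (hu0 : u 0 ≠ 0) :
    ¬ IsLocalMax (fun ζ : ℂ => dualNorm (h (z + ζ • ξ)) (u ζ) * Real.exp (κ * ‖ζ‖ ^ 2)) 0 := by
  intro hmax
  have hposn : 0 < dualNorm (h z) (u 0) := dualNorm_pos (hpd z hz) hu0
  set v0 : Fin r → ℂ := (h z)⁻¹ *ᵥ star (u 0) with hv0
  obtain ⟨v1, hv1, hq⟩ := levi_form_adapted hU hh hpd hz ξ v0
  set q : ℂ → ℂ := fun ζ => star (v0 + ζ • v1) ⬝ᵥ (h (z + ζ • ξ) *ᵥ (v0 + ζ • v1)) with hqdef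
  set c : ℂ → ℂ := fun ζ => u ζ ⬝ᵥ (v0 + ζ • v1) with hcdef
  have hdet : IsUnit (h z).det := (Matrix.isUnit_iff_isUnit_det _).mp (hpd z hz).isUnit
  have hcan : AnalyticAt ℂ c 0 := by
    have : c = fun ζ => ∑ a, u ζ a * (v0 a + ζ * v1 a) := by
      funext ζ; rfl
    rw [this]
    apply Finset.analyticAt_fun_sum
    intro a _
    exact (hu a).mul (by fun_prop)
  have hc0 : c 0 = (dualNorm (h z) (u 0) : ℂ) := by
    have h1 : c 0 = u 0 ⬝ᵥ ((h z)⁻¹ *ᵥ star (u 0)) := by simp only [hcdef, hv0, dotProduct_add, dotProduct_smul, smul_eq_mul, zero_mul, add_zero]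
    obtain ⟨C, hC, hCeq⟩ := exists_factor (hpd z hz)
    have h2 : (u 0 ⬝ᵥ ((h z)⁻¹ *ᵥ star (u 0))) = (nsq (u 0 ᵥ* C⁻¹) : ℂ) := by
      rw [hCeq, Matrix.mul_inv_rev, ← mulVec_mulVec, dotProduct_mulVec,
        ← conjTranspose_nonsing_inv]
      have h1 : (C⁻¹)ᴴ *ᵥ star (u 0) = star (u 0 ᵥ* C⁻¹) := by
        rw [star_vecMul]
      rw [h1, nsq_eq]
    rw [h1, h2]
    congr 1
    rw [hCeq, dualNorm_factor]
  have hv0ne : v0 ≠ 0 := by
    intro h0
    have : c 0 = 0 := by simp only [hcdef, h0, zero_add, dotProduct_smul, smul_eq_mul, zero_mul]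
    rw [hc0] at this
    have h2 : dualNorm (h z) (u 0) = 0 := by exact_mod_cast this
    linarith only [hposn, h2]
  have hq0 : (q 0).re = dualNorm (h z) (u 0) := by
    have h1 : q 0 = star v0 ⬝ᵥ star (u 0) := by
      simp only [hqdef, zero_smul, add_zero]
      rw [hv0, mulVec_mulVec, Matrix.mul_nonsing_inv _ hdet, one_mulVec]
    have h2 : star v0 ⬝ᵥ star (u 0) = starRingEnd ℂ (c 0) := by
      simp only [hcdef, zero_smul, add_zero]
      rw [Matrix.star_dotProduct_star]; rfl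
    rw [h1, h2, hc0]
    simp
  -- the comparison function
  set N0 := dualNorm (h z) (u 0) with hN0
  have hcd : ContDiffAt ℝ 2 c 0 := (hcan.contDiffAt (n := 2)).restrict_scalars ℝ
  have hc2 : ContDiffAt ℝ 2 (fun ζ => ‖c ζ‖ ^ 2) 0 := hcd.norm_sq ℝ
  have hqre : ContDiffAt ℝ 2 (fun ζ => reCLM (q ζ)) 0 := reCLM.contDiff.contDiffAt.comp (0 : ℂ) hq
  have hc2' : ContDiffAt ℝ 2 (fun ζ => ((-N0⁻¹) • ContinuousLinearMap.id ℝ ℝ) (‖c ζ‖ ^ 2)) 0 :=
    ((-N0⁻¹) • ContinuousLinearMap.id ℝ ℝ).contDiff.contDiffAt.comp (0 : ℂ) hc2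
  have hean : AnalyticAt ℂ (fun ζ => ζ * c ζ) 0 := analyticAt_id.mul hcan
  have hed : ContDiffAt ℝ 2 (fun ζ => ζ * c ζ) 0 := (hean.contDiffAt (n := 2)).restrict_scalars ℝ
  have he2 : ContDiffAt ℝ 2 (fun ζ => ‖ζ * c ζ‖ ^ 2) 0 := hed.norm_sq ℝ
  have he2' : ContDiffAt ℝ 2
      (fun ζ => ((-(κ * N0⁻¹)) • ContinuousLinearMap.id ℝ ℝ) (‖ζ * c ζ‖ ^ 2)) 0 :=
    ((-(κ * N0⁻¹)) • ContinuousLinearMap.id ℝ ℝ).contDiff.contDiffAt.comp (0 : ℂ) he2
  have h8 : ‖c 0‖ ^ 2 = N0 ^ 2 := by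
    rw [hc0, Complex.norm_real, Real.norm_eq_abs, sq_abs]
  have hmin : IsLocalMin (fun ζ => (reCLM (q ζ) +
      ((-N0⁻¹) • ContinuousLinearMap.id ℝ ℝ) (‖c ζ‖ ^ 2)) +
      ((-(κ * N0⁻¹)) • ContinuousLinearMap.id ℝ ℝ) (‖ζ * c ζ‖ ^ 2)) 0 := by
    have hcont : Continuous fun ζ : ℂ => z + ζ • ξ := by fun_prop
    have hUe : ∀ᶠ ζ : ℂ in 𝓝 0, z + ζ • ξ ∈ U := by
      apply hcont.continuousAt.eventually
      simpa only [zero_smul, add_zero, eventually_mem_set] using hU.mem_nhds hz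
    filter_upwards [hUe, hmax] with ζ h1 h2
    have h3 := pairing_le (hpd _ h1) (u ζ) (v0 + ζ • v1)
    have h4 : dualNorm (h (z + (0 : ℂ) • ξ)) (u 0) * Real.exp (κ * ‖(0 : ℂ)‖ ^ 2) = N0 := by
      simp [hN0]
    rw [h4] at h2
    have h5 : 0 ≤ (q ζ).re := by
      have := (hpd _ h1).posSemidef.re_dotProduct_nonneg (v0 + ζ • v1)
      exact this
    have h10 : 1 + κ * ‖ζ‖ ^ 2 ≤ Real.exp (κ * ‖ζ‖ ^ 2) := by
      linarith only [Real.add_one_le_exp (κ * ‖ζ‖ ^ 2)]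
    have h6 : ‖c ζ‖ ^ 2 * (1 + κ * ‖ζ‖ ^ 2) ≤ N0 * (q ζ).re :=
      calc ‖c ζ‖ ^ 2 * (1 + κ * ‖ζ‖ ^ 2) ≤ ‖c ζ‖ ^ 2 * Real.exp (κ * ‖ζ‖ ^ 2) :=
            mul_le_mul_of_nonneg_left h10 (sq_nonneg _)
        _ ≤ dualNorm (h (z + ζ • ξ)) (u ζ) * (q ζ).re * Real.exp (κ * ‖ζ‖ ^ 2) :=
            mul_le_mul_of_nonneg_right h3 (Real.exp_nonneg _)
        _ = dualNorm (h (z + ζ • ξ)) (u ζ) * Real.exp (κ * ‖ζ‖ ^ 2) * (q ζ).re := by ring
        _ ≤ N0 * (q ζ).re := mul_le_mul_of_nonneg_right h2 h5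
    have h7 : N0⁻¹ * (‖c ζ‖ ^ 2 * (1 + κ * ‖ζ‖ ^ 2)) ≤ (q ζ).re := by
      rw [inv_mul_le_iff₀ hposn]; exact h6
    simp only [reCLM_apply, _root_.smul_apply, ContinuousLinearMap.id_apply, smul_eq_mul]
    rw [hq0, h8, zero_mul, norm_zero, norm_mul, mul_pow]
    have h9 : -N0⁻¹ * N0 ^ 2 = -N0 := by
      (clear * - hposn; field_simp)
    rw [h9]
    linarith only [h7]
  have hlevi := LC.levi_nonneg_of_isLocalMin (1 : ℂ) ((hqre.add hc2').add he2') hmin
  rw [LC.levi_add _ (hqre.add hc2') he2', LC.levi_add _ hqre hc2', LC.levi_clm _ _ hq,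
    LC.levi_clm _ _ hc2, LC.levi_clm _ _ he2, hv1, LC.analytic_levi_normSq hcan,
    LC.analytic_levi_normSq hean] at hlevi
  have hder : deriv (fun ζ => ζ * c ζ) 0 = c 0 := by
    have h1 := (hasDerivAt_id' (0 : ℂ)).mul hcan.differentiableAt.hasDerivAt
    have h2 : deriv (fun ζ => ζ * c ζ) 0 = _ := h1.deriv
    rw [h2]
    simp
  rw [hder, mul_one (c 0), h8] at hlevi
  have hpos := hG v0 hv0ne
  have hq1 : (star v0 ⬝ᵥ (h z *ᵥ v0)).re = N0 := by
    rw [← hq0]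
    simp only [hqdef, zero_smul, add_zero]
  rw [hq1] at hpos
  simp only [reCLM_apply, neg_re, _root_.smul_apply, ContinuousLinearMap.id_apply, smul_eq_mul] at hlevi
  have h11 : 0 ≤ N0⁻¹ * ‖deriv c 0 * 1‖ ^ 2 := by (clear * - hposn; positivity)
  have h12 : κ * N0⁻¹ * N0 ^ 2 = κ * N0 := by
    (clear * - hposn; field_simp)
  linarith only [hpos, hlevi, h11, h12]

theorem dn_compat {n r : ℕ} {A : TorusBundle (gaussLattice n) r} (H : HermitianMetric A) (i j : A.ι)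
    {l z : Fin n → ℂ} (hl : l ∈ gaussLattice n) (hz : z ∈ A.U j) (hzl : z + l ∈ A.U i)
    (u : Fin r → ℂ) : dualNorm (H.h j z) (u ᵥ* A.g i j l z) = dualNorm (H.h i (z + l)) u := by
  have h1 := H.compat i j l hl z hz hzl
  have h2 : IsUnit (A.g i j l z) := by
    have h3 := posDef_isUnit_det (H.posDef j z hz)
    rw [h1, det_mul] at h3
    exact (Matrix.isUnit_iff_isUnit_det _).2 (isUnit_of_mul_isUnit_right h3)
  rw [h1, Curv.dualNorm_compat h2]

/-- the dual norms of a smooth metric whose curvature is not too negative -/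
noncomputable def famOfMetric {n r : ℕ} {A : TorusBundle (gaussLattice n) r} (H : HermitianMetric A)
    (hc : ∀ z : Fin n → ℂ, ∃ j, ∃ l ∈ gaussLattice n, z + l ∈ A.U j ∧
      ∀ ξ : Fin n → ℂ, ξ ≠ 0 → ∀ v : Fin r → ℂ, v ≠ 0 →
      -(‖ξ‖ ^ 2 / 5) * (star v ⬝ᵥ (H.h j (z + l) *ᵥ v)).re <
        (chernCurvature (H.h j) (z + l) ξ v).re) :
    Fam A where
  N i z u := Real.sqrt (dualNorm (H.h i z) u)
  add i z hz u v := Curv.sqrt_dualNorm_add (H.posDef i z hz) u v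
  smul i z _ c u := Curv.sqrt_dualNorm_smul _ c u
  nonneg _ _ _ _ := Real.sqrt_nonneg _
  compat i j l hl z hz hzl u := by rw [dn_compat H i j hl hz hzl]
  usc i u hu := by
    refine ContinuousOn.upperSemicontinuousOn (Real.continuous_sqrt.comp_continuousOn ?_)
    have hinv := fun a b => (contDiffOn_inv_entry (H.smooth i)
      (fun z hz => (posDef_isUnit_det (H.posDef i z hz)).ne_zero) a b).continuousOn
    have hua : ∀ a, Continuous fun z => u z a := fun a => (continuous_apply a).comp hu.continuous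
    change ContinuousOn (fun z => (∑ a, u z a * ∑ b, (H.h i z)⁻¹ a b * star (u z b)).re) _
    refine Complex.continuous_re.comp_continuousOn ?_
    refine continuousOn_finsetSum _ fun a _ => (hua a).continuousOn.mul ?_
    exact continuousOn_finsetSum _ fun b _ => (hinv a b).mul (hua b).star.continuousOn
  wm i z hz ξ u κ hξ hκ hu hp hmax := by
    obtain ⟨j, l, hl, hzl, hc'⟩ := hc z
    have hopen : IsOpen {y | y ∈ A.U j ∧ y + -l ∈ A.U i} :=
      (A.isOpen_U j).inter ((A.isOpen_U i).preimage (continuous_id.add continuous_const))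
    have hline : Differentiable ℂ fun ζ : ℂ => z + l + ζ • ξ := by fun_prop
    have hev : ∀ᶠ ζ : ℂ in 𝓝 0, z + l + ζ • ξ ∈ {y | y ∈ A.U j ∧ y + -l ∈ A.U i} := by
      apply hline.continuous.continuousAt.eventually
      refine hopen.mem_nhds ?_
      simp only [zero_smul, add_zero, Set.mem_ofPred_eq, add_neg_cancel_right]
      exact ⟨hzl, hz⟩
    have e : ∀ ζ : ℂ, z + l + ζ • ξ ∈ {y | y ∈ A.U j ∧ y + -l ∈ A.U i} →
        dualNorm (H.h j (z + l + ζ • ξ)) (u ζ ᵥ* A.g i j (-l) (z + l + ζ • ξ)) *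
          Real.exp (2 * κ * ‖ζ‖ ^ 2) =
        (Real.sqrt (dualNorm (H.h i (z + ζ • ξ)) (u ζ)) * Real.exp (κ * ‖ζ‖ ^ 2)) ^ 2 := by
      intro ζ hζ
      have e1 : z + l + ζ • ξ + -l = z + ζ • ξ := by abel
      have hζ' : z + ζ • ξ ∈ A.U i := e1 ▸ hζ.2
      have h0 : 0 ≤ dualNorm (H.h i (z + ζ • ξ)) (u ζ) := by
        by_cases h : u ζ = 0
        · simp [h, dualNorm]
        · exact (Curv.dualNorm_pos (H.posDef i _ hζ') h).le
      rw [dn_compat H i j (neg_mem hl) hζ.1 hζ.2, e1, mul_pow, Real.sq_sqrt h0,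
        ← Real.exp_nat_mul]
      congr 2
      push_cast
      ring
    refine wm_of_curvature (A.isOpen_U j) (fun a b => (H.smooth j a b).of_le (by norm_cast))
      (H.posDef j) hzl ξ (κ := 2 * κ) (by nlinarith only [hκ, sq_nonneg ‖ξ‖]) (fun v hv => ?_)
      (fun ζ => u ζ ᵥ* A.g i j (-l) (z + l + ζ • ξ)) (fun a => ?_) (fun h0 => ?_) ?_
    · have h1 : 0 ≤ (star v ⬝ᵥ (H.h j (z + l) *ᵥ v)).re :=
        (H.posDef j _ hzl).posSemidef.re_dotProduct_nonneg v
      refine lt_of_le_of_lt (mul_le_mul_of_nonneg_right ?_ h1) (hc' ξ hξ v hv)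
      linarith only [hκ]
    · simp only [Matrix.vecMul, dotProduct]
      refine Finset.analyticAt_fun_sum _ fun b _ => (hu b).mul ?_
      exact ((A.holo i j (-l) (neg_mem hl) b a).comp hline.differentiableOn
        (Set.mapsTo_preimage _ _)).analyticAt hev
    · have h1 := e 0 hev.self_of_nhds
      rw [h0] at h1
      simp only [zero_smul, add_zero] at h1
      have h2 : 0 < (Real.sqrt (dualNorm (H.h i z) (u 0)) * Real.exp (κ * ‖(0 : ℂ)‖ ^ 2)) ^ 2 :=
        pow_pos (mul_pos hp (Real.exp_pos _)) 2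
      rw [← h1] at h2
      simp [dualNorm] at h2
    · filter_upwards [hmax, hev] with ζ h1 h2
      rw [e ζ h2, e 0 hev.self_of_nhds]
      exact pow_le_pow_left₀ (by positivity) h1 2

end Vale.Agent.N296
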