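import Vale.Agent.N296.Proj
import Vale.Agent.N296.Fam
import Vale.Agent.N296.Defs

/-!
# N296: the final statement
-/

set_option linter.all false

noncomputable section

namespace Vale.Agent.N296

open Bundle Matrix Filter Set Metric
open scoped Manifold ContDiff Topology ComplexOrder
open Vale.Agent.P296Z

variable {n r : ℕ} {A : P296.TorusBundle (P296.gaussLattice n) r}

theorem cv_eq {α β : A.ι × Cn n} {x : Tor n} (hα : x ∈ bs A α) (hβ : x ∈ bs A β) (u : Cn r) :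
    covec ((vbc A).localTriv α) x (u ᵥ* gm A β α x) = covec ((vbc A).localTriv β) x u := by
  rw [← tm_core A hα hβ]
  exact covec_tm (t := (vbc A).localTriv β) (t' := (vbc A).localTriv α) hβ hα u

variable (N : ∀ x, Seminorm ℂ (Module.Dual ℂ ((vbc A).Fiber x)))

/-- the seminorm in a trivialization -/
def sn (β : A.ι × Cn n) (x : Tor n) (u : Cn r) : ℝ := N x (covec ((vbc A).localTriv β) x u)

theorem mem_bs {i : A.ι} {z w : Cn n} (h1 : w ∈ ball z (1 / 4)) (h2 : w ∈ A.U i) :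
    pr w ∈ bs A (i, z) :=
  ⟨pr_mem_source h1, by
    change ch z (pr w) ∈ A.U i
    rw [ch_pr h1]; exact h2⟩

theorem sn_loc {i : A.ι} {z w : Cn n} (h1 : w ∈ ball z (1 / 4)) (h2 : w ∈ A.U i) (u : Cn r) :
    loc (fun x l => N x l) (ch z) ((vbc A).localTriv (i, z)) (w, u) = sn N (i, w) (pr w) u := by
  have h4 : gm A (i, z) (i, w) (pr w) = 1 := by
    unfold gm
    rw [ch_pr h1, ch_pr_self, sub_self, A.g_self i w h2]
  have h5 := cv_eq (pr_mem_bs A h2) (mem_bs h1 h2) u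
  rw [h4, Matrix.vecMul_one] at h5
  unfold sn
  rw [h5]
  rfl

variable {N}

theorem psh_sn (hN : Seminegative n r N) {i : A.ι} {z : Cn n} {W : Set (Cn n)}
    (hW : W ⊆ ball z (1 / 4) ∩ A.U i) (hWo : IsOpen W) {u : Cn n → Cn r}
    (hu : DifferentiableOn ℂ u W) : ∃ f : Cn n → ℝ, IsPsh f W ∧
      ∀ w ∈ W, f w = sn N (i, w) (pr w) (u w) ^ 2 :=
  ⟨_, hN (ch z) (ch_mem z) ((vbc A).localTriv (i, z)) W
    (fun w hw => ⟨(hW hw).1, mem_bs (hW hw).1 (hW hw).2⟩) hWo u hu,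
    fun w hw => by rw [sn_loc N (hW hw).1 (hW hw).2]⟩

/-- the family of seminorms given by a seminegative singular metric -/
def famOfSem (hN : Seminegative n r N) : Fam A where
  N i z u := sn N (i, z) (pr z) u
  add i z _ u v := by
    have h : covec ((vbc A).localTriv (i, z)) (pr z) (u + v) =
        covec ((vbc A).localTriv (i, z)) (pr z) u + covec ((vbc A).localTriv (i, z)) (pr z) v := by
      ext w
      simp [covec_apply, add_mul, Finset.sum_add_distrib]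
    unfold sn
    rw [h]
    exact map_add_le_add _ _ _
  smul i z _ c u := by
    unfold sn
    rw [covec_smul]
    exact map_smul_eq_mul _ _ _
  nonneg i z _ u := apply_nonneg _ _
  compat i j l hl z hz hzl u := by
    have h1 : pr (z + l) = pr z := by
      symm; rw [pr_eq, add_sub_cancel_left]; exact hl
    have h2 : pr z ∈ bs A (i, z + l) := h1 ▸ pr_mem_bs A hzl
    have h3 : gm A (i, z + l) (j, z) (pr z) = A.g i j l z := by
      unfold gm
      rw [ch_pr_self, ← h1, ch_pr_self, add_sub_cancel_left]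
    rw [h1, ← h3]
    unfold sn
    rw [cv_eq (pr_mem_bs A hz) h2]
  usc i u hu := by
    intro z hz
    have hWo : IsOpen (ball z (1 / 4) ∩ A.U i) := isOpen_ball.inter (A.isOpen_U i)
    have hzW : z ∈ ball z (1 / 4) ∩ A.U i := ⟨mem_ball_self (by norm_num), hz⟩
    obtain ⟨f, hf, hf'⟩ := psh_sn hN (i := i) (z := z) subset_rfl hWo hu.differentiableOn
    have h1 : UpperSemicontinuousAt (fun w => sn N (i, w) (pr w) (u w) ^ 2) z := by
      refine usc_local (φ := id) hWo hf.1 continuousAt_id hzW ?_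
      filter_upwards [hWo.mem_nhds hzW] with w hw
      exact (hf' w hw).symm
    refine UpperSemicontinuousAt.upperSemicontinuousWithinAt _ ?_
    rw [upperSemicontinuousAt_iff] at h1 ⊢
    intro y hy
    have h0 : 0 ≤ sn N (i, z) (pr z) (u z) := apply_nonneg _ _
    filter_upwards [h1 (y ^ 2) (pow_lt_pow_left₀ hy h0 two_ne_zero)] with w hw
    exact lt_of_pow_lt_pow_left₀ 2 (h0.trans hy.le) hw
  wm i z hz ξ u κ hξ hκ hu hp hmax := by
    obtain ⟨k, hk⟩ := Function.ne_iff.1 hξ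
    have hk' : ξ k ≠ 0 := hk
    have hκ0 : 0 < κ := lt_of_lt_of_le (by have := norm_pos_iff.2 hξ; positivity) hκ
    set lam : Cn n → ℂ := fun y => (y k - z k) / ξ k with hlam
    have hld : Differentiable ℂ lam := by
      simp only [hlam]
      fun_prop
    have hl1 : ∀ ζ : ℂ, lam (z + ζ • ξ) = ζ := fun ζ => by
      simp only [hlam, Pi.add_apply, Pi.smul_apply, smul_eq_mul, add_sub_cancel_left]
      field_simp
    set W : Set (Cn n) := (ball z (1 / 4) ∩ A.U i) ∩ lam ⁻¹' {ζ | AnalyticAt ℂ u ζ} with hWdef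
    have hWo : IsOpen W := (isOpen_ball.inter (A.isOpen_U i)).inter
      ((isOpen_analyticAt ℂ u).preimage hld.continuous)
    have hl0 : lam z = 0 := by simp [hlam]
    have hzW : z ∈ W := ⟨⟨mem_ball_self (by norm_num), hz⟩, by
      change AnalyticAt ℂ u (lam z)
      rw [hl0]
      exact AnalyticAt.pi hu⟩
    obtain ⟨f, hf, hf'⟩ := psh_sn hN (i := i) (z := z) (W := W) inter_subset_left hWo
      (u := fun y => u (lam y)) fun y hy =>
        ((show AnalyticAt ℂ u (lam y) from hy.2).differentiableAt.comp y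
          (hld y)).differentiableWithinAt
    have hcont : Continuous fun ζ : ℂ => z + ζ • ξ := by fun_prop
    have hev : ∀ᶠ ζ : ℂ in 𝓝 0, z + ζ • ξ ∈ W := by
      apply hcont.continuousAt.eventually
      simpa only [zero_smul, add_zero, Filter.eventually_mem_set] using hWo.mem_nhds hzW
    obtain ⟨R, hR, hRb⟩ := Metric.nhds_basis_closedBall.eventually_iff.1 (hev.and hmax)
    have hin : ∀ ζ : ℂ, ‖ζ‖ ≤ 1 → ζ * R ∈ closedBall (0 : ℂ) R := fun ζ hζ => by
      rw [mem_closedBall_zero_iff, norm_mul, Complex.norm_real, Real.norm_eq_abs, abs_of_pos hR]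
      exact mul_le_of_le_one_left hR.le hζ
    have h1 := hf.2 z ((R : ℂ) • ξ) fun ζ hζ => by
      rw [smul_smul]
      exact (hRb (hin ζ hζ)).1
    set N0 := sn N (i, z) (pr z) (u 0) with hN0
    have hp' : 0 < N0 := hp
    have h2 : Real.circleAverage (fun ζ => f (z + ζ • (R : ℂ) • ξ)) 0 1 ≤
        (N0 * Real.exp (-(κ * R ^ 2))) ^ 2 := by
      by_cases hi : CircleIntegrable (fun ζ => f (z + ζ • (R : ℂ) • ξ)) 0 1
      swap
      · rw [Real.circleAverage.integral_undef hi]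
        positivity
      refine Real.circleAverage_mono_on_of_le_circle hi fun ζ hζ => ?_
      have h3 : ‖ζ‖ = 1 := by simpa using hζ
      obtain ⟨h4, h5⟩ := hRb (hin ζ h3.le)
      rw [smul_smul, hf' _ h4, hl1]
      refine pow_le_pow_left₀ (apply_nonneg _ _) ?_ 2
      have h6 : ‖ζ * R‖ = R := by
        rw [norm_mul, h3, one_mul, Complex.norm_real, Real.norm_eq_abs, abs_of_pos hR]
      simp only [zero_smul, add_zero, norm_zero, h6] at h5
      rw [Real.exp_neg, ← div_eq_mul_inv, le_div_iff₀ (Real.exp_pos _)]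
      refine h5.trans (le_of_eq ?_)
      rw [zero_pow two_ne_zero, mul_zero, Real.exp_zero, mul_one]
    rw [hf' z hzW, hl0] at h1
    have h7 : N0 * Real.exp (-(κ * R ^ 2)) < N0 :=
      mul_lt_of_lt_one_right hp' (Real.exp_lt_one_iff.2 (neg_lt_zero.2 (by positivity)))
    have h8 := pow_lt_pow_left₀ h7 (by positivity) two_ne_zero
    exact absurd (h1.trans h2) (not_le.2 h8)

theorem gr_ev (H : HermitianMetric n r (vbc A).Fiber) {i : A.ι} {z w : Cn n}
    (h1 : w ∈ ball z (1 / 4)) (h2 : w ∈ A.U i) :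
    (toMetric H).h i =ᶠ[𝓝 w] gram H.h (ch z) ((vbc A).localTriv (i, z)) := by
  filter_upwards [isOpen_ball.mem_nhds h1, (A.isOpen_U i).mem_nhds h2] with y h1 h2
  have h3 := mem_bs h1 h2
  have h4 : gm A (i, z) (i, y) (pr y) = 1 := by
    unfold gm
    rw [ch_pr h1, ch_pr_self, sub_self, A.g_self i y h2]
  change gr (sesq H) ((vbc A).localTriv (i, y)) (pr y) = _
  rw [gr_change (t := (vbc A).localTriv (i, z)) (sesq H) h3 (pr_mem_bs A h2),
    tm_core A (pr_mem_bs A h2) h3, h4, Matrix.conjTranspose_one, Matrix.one_mul, Matrix.mul_one]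
  rfl

theorem curv_toMetric {H : ℕ → HermitianMetric n r (vbc A).Fiber} (h : AlmostSemipositive H) :
    ∃ k, ∀ z : Cn n, ∃ j, ∃ l ∈ P296.gaussLattice n, z + l ∈ A.U j ∧
      ∀ ξ : Cn n, ξ ≠ 0 → ∀ v : Cn r, v ≠ 0 →
      -(‖ξ‖ ^ 2 / 5) * (star v ⬝ᵥ ((toMetric (H k)).h j (z + l) *ᵥ v)).re <
        (P296.chernCurvature ((toMetric (H k)).h j) (z + l) ξ v).re := by
  have h1 : ∀ x : Tor n, ∃ (i : A.ι) (z : Cn n) (K : Set (Cn n)), IsCompact K ∧
      K ⊆ ball z (1 / 4) ∩ A.U i ∧ pr '' K ∈ 𝓝 x := by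
    intro x
    obtain ⟨z, rfl⟩ := pr_surjective x
    obtain ⟨i, l, hl, hi⟩ := A.cover z
    have h2 : pr z = pr (z + l) := by rw [pr_eq, add_sub_cancel_left]; exact hl
    obtain ⟨K, hK, hK', hK''⟩ := local_compact_nhds (x := z + l)
      ((isOpen_ball.inter (A.isOpen_U i)).mem_nhds
        ⟨mem_ball_self (by norm_num : (0 : ℝ) < 1 / 4), hi⟩)
    exact ⟨i, z + l, K, hK'', hK', h2 ▸ isOpenMap_pr.image_mem_nhds hK⟩
  choose i z K hK hKs hKn using h1
  have hd : ∀ x, K x ⊆ dom (ch (z x)) ((vbc A).localTriv (i x, z x)) := fun x w hw =>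
    ⟨(hKs x hw).1, mem_bs (hKs x hw).1 (hKs x hw).2⟩
  choose k₀ hk₀ using fun x => h (ch (z x)) (ch_mem _) ((vbc A).localTriv (i x, z x)) (K x) (hd x)
    (hK x) (1 / 10) (by norm_num)
  obtain ⟨T, hT⟩ := CompactSpace.elim_nhds_subcover (fun x => pr '' K x) hKn
  refine ⟨T.sup k₀, fun y => ?_⟩
  have h3 : pr y ∈ ⋃ x ∈ T, pr '' K x := hT ▸ mem_univ _
  simp only [mem_iUnion] at h3
  obtain ⟨x, hx, w, hw, hwy⟩ := h3
  refine ⟨i x, w - y, pr_eq.1 hwy.symm, ?_, fun ξ hξ v hv => ?_⟩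
  · rw [add_sub_cancel]; exact (hKs x hw).2
  rw [add_sub_cancel]
  have h4 := hk₀ x (T.sup k₀) (Finset.le_sup hx) w hw ξ v
  generalize H (T.sup k₀) = G at h4 ⊢
  have h5 := gr_ev G (hKs x hw).1 (hKs x hw).2
  rw [curvature_eq (isOpen_dom _ _) (G.smooth (ch (z x)) (ch_mem _) ((vbc A).localTriv (i x, z x)))
    (fun y hy => gr_posDef (h := sesq G) (G.herm _) (G.pos _) hy.2) (hd x hw),
    ← chernCurvature_congr h5, ← h5.self_of_nhds] at h4
  refine lt_of_lt_of_le ?_ h4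
  have h2 : 0 < (star v ⬝ᵥ ((toMetric G).h (i x) w *ᵥ v)).re :=
    ((toMetric G).posDef _ w (hKs x hw).2).re_dotProduct_pos hv
  refine mul_lt_mul_of_pos_right ?_ h2
  have h6 : 0 < ‖ξ‖ ^ 2 := by have := norm_pos_iff.2 hξ; positivity
  linarith only [h6]

theorem big (m s : ℕ) : ∃ A : P296.TorusBundle (P296.gaussLattice (2 + m)) (2 + s), A.IsAmple ∧
    (∀ H : P296.HermitianMetric A, ¬ H.GriffithsPositive) ∧
    ∀ S : Fam A, ∀ i, ∀ z ∈ A.U i, ∃ u, u ≠ 0 ∧ S.N i z u = 0 := by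
  obtain ⟨ε, h0, hε⟩ := P296.H354.big_no_griffiths
  obtain ⟨ε', h0', hε'⟩ := fam_ext
  have h1 : 0 < min ε ε' := lt_min h0 h0'
  exact ⟨_, P296.H354.big_isAmple h1 m s, hε _ h1 (min_le_left _ _) m s,
    hε' _ h1 (min_le_right _ _) m s⟩

theorem all (n r : ℕ) (hn : 2 ≤ n) (hr : 2 ≤ r) :
    ¬ GriffithsConjecture n r ∧ ¬ WeakGriffiths n r := by
  obtain ⟨m, rfl⟩ := Nat.exists_eq_add_of_le hn
  obtain ⟨s, rfl⟩ := Nat.exists_eq_add_of_le hr
  obtain ⟨A, hA, hN, hF⟩ := big m s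
  obtain ⟨q, hq⟩ : ∃ q, 2 + s = q + 1 := ⟨1 + s, by omega⟩
  revert A
  rw [hq]
  intro A hA hN hF
  refine ⟨fun h => ?_, fun h => ?_⟩
  · obtain ⟨H, hH⟩ := h (Tor (2 + m)) isSmoothProjective_tor (vbc A).Fiber (isAmple_core hA)
    exact hN (toMetric H) (griffiths_toMetric H hH)
  rcases h (Tor (2 + m)) isSmoothProjective_tor (vbc A).Fiber (isAmple_core hA) with
    ⟨H, hH⟩ | ⟨N, hS, x, hx⟩
  · obtain ⟨k, hk⟩ := curv_toMetric hH
    obtain ⟨i, l, -, hi⟩ := A.cover 0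
    obtain ⟨u, hu, h0⟩ := hF (famOfMetric (toMetric (H k)) hk) i _ hi
    exact (Real.sqrt_pos.2 (P296.Curv.dualNorm_pos ((toMetric (H k)).posDef i _ hi) hu)).ne' h0
  · obtain ⟨z, rfl⟩ := pr_surjective x
    obtain ⟨i, l, hl, hi⟩ := A.cover z
    have h1 : pr z = pr (z + l) := by rw [pr_eq, add_sub_cancel_left]; exact hl
    rw [h1] at hx
    obtain ⟨u, hu, h0⟩ := hF (famOfSem hS) i _ hi
    exact covec_ne_zero (t := (vbc A).localTriv (i, z + l)) (pr_mem_bs A hi) hu (hx _ h0)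

theorem main : (¬ ∀ n r : ℕ, GriffithsConjecture n r) ∧
    ∀ n r : ℕ, 2 ≤ n → 2 ≤ r → ¬ GriffithsConjecture n r ∧ ¬ WeakGriffiths n r :=
  ⟨fun h => (all 2 2 le_rfl le_rfl).1 (h _ _), all⟩

end Vale.Agent.N296
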