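import Vale.Agent.P296Z.Core
import Vale.Agent.P300LC.Main

/-!
# N296: the torus is projective in every dimension
-/

set_option linter.all false

noncomputable section

namespace Vale.Agent.N296

open Bundle Matrix Filter Set Metric
open scoped Manifold ContDiff Topology LinearAlgebra.Projectivization ComplexOrder
open Vale.Agent.P272.K Vale.Agent.P299.H800.KOD Vale.Agent.P296Z

variable {n : ℕ}

theorem chow' {N : ℕ} {X : Type} [TopologicalSpace X] [ChartedSpace (Cn n) X] [CompactSpace X]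
    [ConnectedSpace X] {Φ : X → ℙ ℂ (Cn (N + 1))} (inj : Function.Injective Φ)
    (hΦ : P300.Final.IsProjectiveImmersion (Cn n) Φ) :
    ∃ S, P300.Final.IsNonsingularZeroSetOf n S (Set.range Φ) := by
  obtain ⟨x⟩ : Nonempty X := inferInstance
  exact P300LC.Cn.main (C := P300LC.cone Φ Set.univ) ⟨fun h => h.1 rfl, fun v ⟨a, x, b, c⟩ s hs =>
    ⟨smul_ne_zero hs a, x, b, Submodule.smul_mem _ _ c⟩, P300LC.cl_cone hΦ isClosed_univ,
    P300LC.con_cone hΦ, fun v hv => P300LC.par_cone inj hΦ hv⟩ ⟨_, (Φ x).rep_nonzero, x, trivial,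
      (P300LC.mem_iff (Φ x).rep_nonzero).2 (Φ x).mk_rep.symm⟩ fun z hz =>
    ⟨fun ⟨x, a⟩ => ⟨hz, x, trivial, (P300LC.mem_iff hz).2 a⟩,
      fun ⟨_, x, _, a⟩ => ⟨x, (P300LC.mem_iff hz).1 a⟩⟩

/-- A compact connected manifold with an ample line bundle is a smooth projective variety. -/
theorem isSmoothProjective_of_ample {X : Type} [TopologicalSpace X] [ChartedSpace (Cn n) X]
    [IsManifold 𝓘(ℂ, Cn n) ω X] [T2Space X] [CompactSpace X] [ConnectedSpace X] {L : ALB n X}
    (h : Ample L) : IsSmoothProjective n X := by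
  obtain ⟨m, -, N, s, hs⟩ := h
  have himm : P300.Final.IsProjectiveImmersion (Cn n) fun x : X =>
      Projectivization.mk ℂ (fun i : Fin (N + 1) => (s i).val x) (hs.ne_zero x) := by
    intro x
    have hat : ∀ y ∈ (chartAt (Cn n) x).source, At (chartAt (Cn n) x) y :=
      fun y hy => ⟨chart_mem_atlas _ _, hy⟩
    have hsm : ∀ y ∈ (chartAt (Cn n) x).source, ContMDiffAt 𝓘(ℂ, Cn n) 𝓘(ℂ, Cn (N + 1)) ω
        (fun y => cf s (chartAt (Cn n) x) (chartAt (Cn n) x y)) y := fun y hy =>
      (contDiffAt_cf s (hat y hy)).contMDiffAt.comp y (chart_contMDiffAt (hat y hy))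
    refine ⟨(chartAt (Cn n) x).source, fun y => cf s (chartAt (Cn n) x) (chartAt (Cn n) x y),
      mem_chart_source _ _, ⟨(chartAt (Cn n) x).open_source,
      fun y hy => (hsm y hy).contMDiffWithinAt⟩,
      fun y hy => ⟨cf_ne_zero hs (hat y hy), mk_cf hs (hat y hy)⟩, fun y hy v a hv => ?_⟩
    have h1 := (P300.Emb.mfderiv_chartV hy ((hsm y hy).mdifferentiableAt (by simp)) v).2
    have h2 : (fun z => cf s (chartAt (Cn n) x) (chartAt (Cn n) x ((chartAt (Cn n) x).symm z)))
        =ᶠ[𝓝 (chartAt (Cn n) x y)] cf s (chartAt (Cn n) x) := by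
      filter_upwards [(hat y hy).nhds_target] with z hz
      rw [(chartAt (Cn n) x).right_inv hz]
    rw [h2.fderiv_eq] at h1
    have h3 := cf_imm hs (hat y hy) (h1.symm.trans hv)
    exact (mdifferentiable_chart (I := 𝓘(ℂ, Cn n)) x).mfderiv_injective hy
      (h3.trans (map_zero _).symm)
  obtain ⟨S, ⟨h1, h2⟩, h2'⟩ := chow' hs.injective himm
  refine ⟨N, _, hs.injective, fun x => ?_, S, h1, fun z hz => ⟨h2 z hz, fun h => ?_⟩⟩
  · have hat : ∀ z ∈ (chartAt (Cn n) x).target,
        At (chartAt (Cn n) x) ((chartAt (Cn n) x).symm z) :=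
      fun z hz => At.of_target (chart_mem_atlas _ _) hz
    refine ⟨chartAt (Cn n) x, chart_mem_atlas _ _, (chartAt (Cn n) x).target,
      cf s (chartAt (Cn n) x), mem_chart_source _ _, mem_chart_target _ _,
      (chartAt (Cn n) x).open_target, subset_rfl, fun z hz => ?_, fun z hz => ⟨?_, fun v a hv => ?_⟩⟩
    · have h3 := contDiffAt_cf s (hat z hz)
      rw [(chartAt (Cn n) x).right_inv hz] at h3
      exact (h3.differentiableAt (by simp)).differentiableWithinAt
    · have h3 : ∃ h : cf s (chartAt (Cn n) x) (chartAt (Cn n) x ((chartAt (Cn n) x).symm z)) ≠ 0,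
          _ = Projectivization.mk ℂ _ h := ⟨cf_ne_zero hs (hat z hz), mk_cf hs (hat z hz)⟩
      rw [(chartAt (Cn n) x).right_inv hz] at h3
      exact h3
    · refine cf_imm hs (hat z hz) (a := a) ?_
      rw [(chartAt (Cn n) x).right_inv hz]
      exact hv
  have h3 : jacobianKernel S z = P300.Final.jacobianKernel S z := by
    ext v
    change _ ↔ ∀ P ∈ S, P300.Final.polynomialDifferential P z v = 0
    simp [jacobianKernel, P300.Final.polynomialDifferential, LinearMap.sum_apply, mul_comm]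
  rw [h3]
  exact h2' z hz h

/-- a positive line bundle on the torus -/
def theta (n : ℕ) : ALB n (Tor n) where
  tr e e' x := P296.H354.aut (e x - e' x) (e' x)
  hol := by
    rintro _ _ x ⟨⟨z0, rfl⟩, h⟩ ⟨⟨z1, rfl⟩, h'⟩
    have h1 : pr (ch z0 x) ∈ (ch z0).source := by rw [pr_ch h]; exact h
    have h2 : pr (ch z0 x) ∈ (ch z1).source := by rw [pr_ch h]; exact h'
    have h3 : ContDiffAt ℂ ω (fun z => P296.H354.aut (ch z0 x - ch z1 x) (ch z1 (pr z)))
        (ch z0 x) :=
      (P268.analyticAt_of_differentiableOn isOpen_univ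
        (P296.H354.differentiable_aut _).differentiableOn (mem_univ _)).contDiffAt.comp _
        (contDiffAt_ch_pr h2)
    refine h3.congr_of_eventuallyEq ?_
    filter_upwards [ch_pr_eventually h1, ch_pr_eventually h2] with w hw hw'
    rw [ch_symm]
    congr 1
    rw [hw.2, hw'.2, pr_ch h]
    abel
  ne _ _ _ _ _ := P296.H354.aut_ne_zero _ _
  coc := by
    rintro _ _ _ x ⟨⟨z0, rfl⟩, h⟩ ⟨⟨z1, rfl⟩, h'⟩ ⟨⟨z2, rfl⟩, h''⟩
    have h1 : ch z0 x - ch z1 x ∈ P296.gaussLattice n :=
      pr_eq.1 ((pr_ch h').trans (pr_ch h).symm)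
    have h2 : ch z1 x - ch z2 x ∈ P296.gaussLattice n :=
      pr_eq.1 ((pr_ch h'').trans (pr_ch h').symm)
    have h3 := P296.H354.aut_add h1 h2 (ch z2 x)
    rw [sub_add_sub_cancel, add_sub_cancel] at h3
    rw [← h3, mul_comm]

theorem ample_theta : Ample (theta n) := by
  refine kodaira n (Tor n) (theta n) (fun _ => P296.H354.wt) ⟨fun e x _ => ?_, fun e e' x _ _ => ?_⟩
    fun e x _ => ?_
  · exact P296.H354.contDiff_wt.contDiffAt
  · change _ = _ + Real.log (‖P296.H354.aut (e x - e' x) (e' x)‖ ^ 2)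
    rw [P296.H354.norm_aut_sq, Real.log_exp, add_sub_cancel, add_sub_cancel]
  · refine cHess_posDef P296.H354.contDiff_wt.contDiffAt fun ξ hξ => ?_
    simpa only [one_mul] using P296.H354.levi_wt_pos 1 one_pos (e x) ξ hξ

theorem isSmoothProjective_tor : IsSmoothProjective n (Tor n) :=
  isSmoothProjective_of_ample ample_theta

end Vale.Agent.N296
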